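import Vale.Agent.P287Z.V.Pr1
import Vale.Agent.P287Z.L.Basic2

/-!
# Gluing a quadratic lattice and the symmetric resolution of its discriminant module
-/

namespace Vale.Agent.P287Z.G

open Module Matrix MvPolynomial Filter Vale.Agent.P287 Vale.Agent.P287.Theta Vale.Agent.P287Z.L

theorem div_f {f γ : P3} (hf : Prime f) (h6 : Hg 6 f) {s t : ℤ} (hγ : Hg s γ) (hd : ¬ f ∣ γ)
    {p q : K} (hp : p ∈ AA (6 + t)) (hq : q ∈ AA (s + t)) (h : ev γ * p = ev f * q) :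
    (ev f)⁻¹ * p ∈ AA t := by
  obtain ⟨a, ha, rfl⟩ := mem_AA.1 hp
  obtain ⟨b, hb, rfl⟩ := mem_AA.1 hq
  have h1 : γ * a = f * b := (hγ.mul ha).inj ((h6.mul hb).cast (by ring)) (by
    rw [map_mul, map_mul, h])
  obtain ⟨c, rfl⟩ := (hf.dvd_or_dvd (h1 ▸ dvd_mul_right f b : f ∣ γ * a)).resolve_left hd
  rw [map_mul, inv_mul_cancel_left₀ (h6.ev_ne hf.ne_zero)]
  exact ((h6.quot hf.ne_zero ha).cast (by ring)).mem

theorem comb_pow (n : ℕ) {t : ℤ} (ht : 3 * n < t) {y : K} (hy : y ∈ AA t) :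
    ∃ z : Fin 3 → K, (∀ j, z j ∈ AA (t - n)) ∧ y = ∑ j, z j * tvec j ^ n := by
  obtain ⟨a, ha, rfl⟩ := mem_AA.1 hy
  obtain ⟨q, hq⟩ := V.mem_y n Finset.univ (p := a) fun m hm => by
    by_contra h0
    have h1 := hg_iff.1 ha m h0
    rw [Finsupp.degree_eq_sum, Fin.sum_univ_three] at h1
    have := hm 0 (by simp)
    have := hm 1 (by simp)
    have := hm 2 (by simp)
    omega
  refine ⟨fun j => ev (hc (t - (n + 1) * 1) (q j)) * tvec j, fun j =>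
    AA_cast (AA_mul (hg_hc _ _).mem (tvec_mem j)) (by ring), ?_⟩
  rw [← ha.hc_self, hq, map_sum, map_sum]
  refine Finset.sum_congr rfl fun j _ => ?_
  rw [((hg_X j).pow (n + 1)).hc_mul, map_mul, map_pow, ev_X]
  push_cast
  ring

theorem dot_mem {ι : Type} [Fintype ι] {x y : ι → K} {a b : ι → ℤ} {t : ℤ}
    (hx : ∀ i, x i ∈ AA (a i)) (hy : ∀ i, y i ∈ AA (b i)) (h : ∀ i, a i + b i = t) :
    x ⬝ᵥ y ∈ AA t := Submodule.sum_mem _ fun i _ => AA_cast (AA_mul (hx i) (hy i)) (h i)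

theorem dot_blocks {K ι : Type*} [Field K] [Fintype ι] (Q : Matrix (Fin 4) (Fin 4) K)
    (G : Matrix ι ι K) (x y : Fin 4 ⊕ ι → K) : x ⬝ᵥ (fromBlocks Q 0 0 (-G)) *ᵥ y =
      (x ∘ Sum.inl) ⬝ᵥ Q *ᵥ (y ∘ Sum.inl) - (x ∘ Sum.inr) ⬝ᵥ G *ᵥ (y ∘ Sum.inr) := by
  rw [fromBlocks_mulVec]
  conv_lhs => rw [← Sum.elim_comp_inl_inr x]
  rw [sumElim_dotProduct_sumElim, zero_mulVec, zero_mulVec, add_zero, zero_add, neg_mulVec,
    dotProduct_neg, sub_eq_add_neg]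

theorem sym_dot {K κ : Type*} [CommRing K] [Fintype κ] {Q : Matrix κ κ K} (hQ : Q.IsSymm)
    (x y : κ → K) : x ⬝ᵥ Q *ᵥ y = y ⬝ᵥ Q *ᵥ x := by
  rw [dotProduct_mulVec, ← mulVec_transpose, hQ.eq, dotProduct_comm]

theorem cong_dot {K κ : Type*} [CommRing K] [Fintype κ] {L R : Matrix κ κ K} {A : κ → K}
    {g F : K} (h : ∀ a b, g * L a b = A a * A b + F * R a b) (y y' : κ → K) :
    g * (y ⬝ᵥ L *ᵥ y') = (y ⬝ᵥ A) * (y' ⬝ᵥ A) + F * (y ⬝ᵥ R *ᵥ y') := by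
  simp only [dotProduct, mulVec, Finset.sum_mul_sum]
  simp only [Finset.mul_sum, ← Finset.sum_add_distrib]
  exact Finset.sum_congr rfl fun a _ => Finset.sum_congr rfl fun b _ => by
    linear_combination y a * y' b * h a b

variable {f : P3} {U : ℤ → Submodule ℂ (Fin 4 → K)} {G : Matrix (Fin 4) (Fin 4) K} {l m : ℤ}
  {w₀ : Fin 4 → K} {γ : P3} {n : ℕ} {d : Fin n → ℤ} {φ Λ : Matrix (Fin n) (Fin n) P3}
  {α : Fin n → P3}

/-- the linear form that compares the two discriminant modules -/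
noncomputable def cmp {K ι : Type*} [Field K] [Fintype ι] (z : Fin 4 → K) (F : K)
    (Φ : Matrix ι ι K) (A : ι → K) : (Fin 4 ⊕ ι → K) →ₗ[K] K where
  toFun x := (x ∘ Sum.inl) ⬝ᵥ z - F⁻¹ * ((Φ *ᵥ (x ∘ Sum.inr)) ⬝ᵥ A)
  map_add' x y := by
    rw [Pi.add_comp, Pi.add_comp, mulVec_add, add_dotProduct, add_dotProduct]
    ring
  map_smul' c x := by
    rw [Pi.smul_comp, Pi.smul_comp, mulVec_smul, smul_dotProduct, smul_dotProduct]
    simp only [smul_eq_mul, RingHom.id_apply]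
    ring

variable (f U G l m w₀ d φ α) in
/-- the glued lattice -/
noncomputable def GN (k : ℤ) : Submodule ℂ (Fin 4 ⊕ Fin n → K) :=
  ((sharp G U l k).comap ((LinearMap.funLeft K K Sum.inl).restrictScalars ℂ) ⊓
    (Fr d k).comap (((φ.map ev).mulVecLin ∘ₗ LinearMap.funLeft K K Sum.inr).restrictScalars ℂ)) ⊓
    (sh AA (m + l) k).comap
      ((cmp (G *ᵥ w₀) (ev f) (φ.map ev) fun i => ev (α i)).restrictScalars ℂ)

theorem mem_GN {k : ℤ} {x : Fin 4 ⊕ Fin n → K} : x ∈ GN f U G l m w₀ d φ α k ↔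
    (x ∘ Sum.inl ∈ sharp G U l k ∧ φ.map ev *ᵥ (x ∘ Sum.inr) ∈ Fr d k) ∧
      (x ∘ Sum.inl) ⬝ᵥ G *ᵥ w₀ - (ev f)⁻¹ * ((φ.map ev *ᵥ (x ∘ Sum.inr)) ⬝ᵥ
        fun i => ev (α i)) ∈ AA (k + (m + l)) := Iff.rfl

theorem fam_sharp : Fam (sharp G U l) := (fam_dual (bf G) U).sh l

theorem fam_GN : Fam (GN f U G l m w₀ d φ α) :=
  ((fam_sharp.comap _).inf ((fam_Fr d).comap _)).inf ((fam_AA.sh _).comap _)

theorem sd_cong (hf : Prime f) (h6 : Hg 6 f) (h2 : QD f U G l m w₀ γ)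
    (h3 : SD f U G l m w₀ γ d φ Λ α) {j k : ℤ} {y y' : Fin n → K} (hy : y ∈ Fr d j)
    (hy' : y' ∈ Fr d k) : ∃ q ∈ AA (j + k + 6 + 2 * m + 2 * l),
      ev γ * (y ⬝ᵥ Λ.map ev *ᵥ y') = (y ⬝ᵥ fun i => ev (α i)) * (y' ⬝ᵥ fun i => ev (α i)) +
        ev f * q := by
  choose r hr using h3.cong
  have h4 (a b : Fin n) : Hg (6 + 2 * m + 2 * l + d a + d b) (r a b) :=
    (h6.quot hf.ne_zero (hr a b ▸ (h2.deg.mul (h3.degΛ a b)).sub
      (((h3.degα a).mul (h3.degα b)).cast (by ring)))).cast (by ring)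
  refine ⟨y ⬝ᵥ (of fun a b => ev (r a b)) *ᵥ y', dot_mem (mem_Fr.1 hy)
    (b := fun a => k + 6 + 2 * m + 2 * l + d a) (fun a => dot_mem (fun b => (h4 a b).mem)
      (mem_Fr.1 hy') fun b => by ring) fun a => by ring, ?_⟩
  have h5 (a b : Fin n) : ev γ * ev (Λ a b) = ev (α a) * ev (α b) +
      ev f * ev (r a b) := by
    rw [← map_mul, ← map_mul, ← map_mul, ← hr, ← map_add, add_sub_cancel]
  exact cong_dot h5 y y'

theorem sd_mul (h3 : SD f U G l m w₀ γ d φ Λ α) :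
    φ.map ev * Λ.map ev = ev f • (1 : Matrix (Fin n) (Fin n) K) := by
  rw [← Matrix.map_mul, h3.mul]
  ext i j
  simp [one_apply, apply_ite ev]

theorem sd_inv (hf : ev f ≠ 0) (h3 : SD f U G l m w₀ γ d φ Λ α) (c c' : Fin n → K) :
    c ⬝ᵥ φ.map ev *ᵥ c' = (ev f)⁻¹ * ((φ.map ev *ᵥ c) ⬝ᵥ Λ.map ev *ᵥ (φ.map ev *ᵥ c')) := by
  rw [dotProduct_comm (φ.map ev *ᵥ c), sym_dot (h3.sm.symm.map ev) (Λ.map ev *ᵥ _),
    mulVec_mulVec _ (φ.map ev), sd_mul h3, smul_mulVec, one_mulVec, dotProduct_smul,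
    smul_eq_mul, inv_mul_cancel_left₀ hf]

theorem lam_mem (h3 : SD f U G l m w₀ γ d φ Λ α) {j k : ℤ} {y y' : Fin n → K} (hy : y ∈ Fr d j)
    (hy' : y' ∈ Fr d k) : y ⬝ᵥ Λ.map ev *ᵥ y' ∈ AA (6 + (j + k + l)) :=
  dot_mem (mem_Fr.1 hy) (b := fun a => k + 6 + l + d a) (fun a => dot_mem
    (fun b => (h3.degΛ a b).mem) (mem_Fr.1 hy') fun b => by ring) fun a => by ring

theorem gn_int (hf : Prime f) (h6 : Hg 6 f) (h1 : QL f U G l) (h2 : QD f U G l m w₀ γ)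
    (h3 : SD f U G l m w₀ γ d φ Λ α) {j k : ℤ} {x x' : Fin 4 ⊕ Fin n → K}
    (hx : x ∈ GN f U G l m w₀ d φ α j) (hx' : x' ∈ GN f U G l m w₀ d φ α k) :
    x ⬝ᵥ (fromBlocks G 0 0 (-φ.map ev)) *ᵥ x' ∈ AA (j + k + l) := by
  have hF := h6.ev_ne hf.ne_zero
  obtain ⟨⟨a1, a2⟩, a3⟩ := mem_GN.1 hx
  obtain ⟨⟨b1, b2⟩, b3⟩ := mem_GN.1 hx'
  rw [dot_blocks, sd_inv hF h3]
  generalize x ∘ Sum.inl = w at a1 a3
  generalize x' ∘ Sum.inl = w' at b1 b3
  generalize φ.map ev *ᵥ (x ∘ Sum.inr) = y at a2 a3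
  generalize φ.map ev *ᵥ (x' ∘ Sum.inr) = y' at b2 b3
  obtain ⟨q, q1, q2⟩ := sd_cong hf h6 h2 h3 a2 b2
  have hm {i k : ℤ} {w w' : Fin 4 → K} (hw : w ∈ sharp G U l i) (hw' : w' ∈ sharp G U l k) :
      ev f * (w ⬝ᵥ G *ᵥ w') ∈ AA (i + 6 + k + l) := by
    simpa only [smul_dotProduct, smul_eq_mul] using mem_sharp.1 hw' _ _ (h2.ann _ _ hw)
  have hz : ev γ • w - (ev f * (w ⬝ᵥ G *ᵥ w₀)) • w₀ ∈ U (6 + 2 * m + l + j) :=
    h2.inj _ _ (Submodule.sub_mem _ (fam_sharp.smul h2.deg.mem a1 rfl)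
      (fam_sharp.smul (hm a1 h2.mem) h2.mem (by ring))) (by
      rw [sub_dotProduct, smul_dotProduct, smul_dotProduct, smul_eq_mul, smul_eq_mul, h2.val,
        mul_right_comm, sub_self]
      exact Submodule.zero_mem _)
  have hz' := mem_sharp.1 b1 _ _ hz
  rw [sub_dotProduct, smul_dotProduct, smul_dotProduct, smul_eq_mul, smul_eq_mul,
    sym_dot h1.symm w₀] at hz'
  have hy : (y ⬝ᵥ fun i => ev (α i)) ∈ AA (j + 6 + m + l) :=
    dot_mem (mem_Fr.1 a2) (fun i => (h3.degα i).mem) fun i => by ring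
  have hp : ev f * (w ⬝ᵥ G *ᵥ w') - y ⬝ᵥ Λ.map ev *ᵥ y' ∈ AA (6 + (j + k + l)) :=
    Submodule.sub_mem _ (AA_cast (hm a1 b1) (by ring)) (lam_mem h3 a2 b2)
  have hq := Submodule.sub_mem _ (Submodule.add_mem _ (Submodule.add_mem _
    (AA_cast (j := 6 + 2 * m + l + (j + k + l)) hz' (by ring))
    (AA_cast (AA_mul a3 (hm b1 h2.mem)) (by ring))) (AA_cast (AA_mul hy b3) (by ring)))
    (AA_cast q1 (by ring))
  have h4 := div_f hf h6 h2.deg h2.ndvd hp hq (by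
    rw [mul_sub (ev γ), q2]
    field_simp
    ring)
  rwa [mul_sub, inv_mul_cancel_left₀ hF] at h4

theorem gn_left (h1 : QL f U G l) (h2 : QD f U G l m w₀ γ) {k : ℤ} {u : Fin 4 → K}
    (hu : u ∈ U k) : Sum.elim u 0 ∈ GN f U G l m w₀ d φ α k := mem_GN.2 (by
  rw [Sum.elim_comp_inl, Sum.elim_comp_inr, mulVec_zero, zero_dotProduct, mul_zero, sub_zero]
  exact ⟨⟨h1.int k hu, Submodule.zero_mem _⟩, AA_cast (mem_sharp.1 h2.mem _ _ hu) (by ring)⟩)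

theorem gn_onto (hF : ev f ≠ 0) (h3 : SD f U G l m w₀ γ d φ Λ α) {k : ℤ} {w : Fin 4 → K}
    (hw : w ∈ sharp G U l k) {y : Fin n → K} (hy : y ∈ Fr d k) {a : K} (ha : a ∈ AA (k + m + l))
    (h : ev f * (w ⬝ᵥ G *ᵥ w₀) = (y ⬝ᵥ fun i => ev (α i)) + ev f * a) :
    ∃ x ∈ GN f U G l m w₀ d φ α k, x ∘ Sum.inl = w ∧ φ.map ev *ᵥ (x ∘ Sum.inr) = y := by
  have h4 : φ.map ev *ᵥ ((ev f)⁻¹ • Λ.map ev *ᵥ y) = y := by
    rw [mulVec_smul, mulVec_mulVec, sd_mul h3, smul_mulVec, one_mulVec, inv_smul_smul₀ hF]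
  refine ⟨Sum.elim w ((ev f)⁻¹ • Λ.map ev *ᵥ y), mem_GN.2 ?_, rfl, h4⟩
  rw [Sum.elim_comp_inl, Sum.elim_comp_inr, h4, ← sub_eq_iff_eq_add.2 h, mul_sub,
    inv_mul_cancel_left₀ hF, inv_mul_cancel_left₀ hF, sub_sub_cancel]
  exact ⟨⟨hw, hy⟩, AA_cast ha (by ring)⟩

theorem gn_right (hf : Prime f) (h6 : Hg 6 f) (h2 : QD f U G l m w₀ γ)
    (h3 : SD f U G l m w₀ γ d φ Λ α) (i : Fin n) :
    Sum.elim (0 : Fin 4 → K) (Pi.single i 1) ∈ GN f U G l m w₀ d φ α (-l - d i) := by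
  have hF := h6.ev_ne hf.ne_zero
  have hy : φ.map ev *ᵥ Pi.single i 1 ∈ Fr d (-l - d i) := mem_Fr.2 fun a => by
    rw [mulVec_single_one]
    exact ((h3.sm.deg a i).cast (by ring)).mem
  refine mem_GN.2 ?_
  rw [Sum.elim_comp_inl, Sum.elim_comp_inr, zero_dotProduct, zero_sub]
  refine ⟨⟨Submodule.zero_mem _, hy⟩, Submodule.neg_mem _ ?_⟩
  obtain ⟨y, y1, a, a1, a2⟩ := h3.onto m w₀ h2.mem
  obtain ⟨q, q1, q2⟩ := sd_cong hf h6 h2 h3 hy y1
  have h4 : (φ.map ev *ᵥ Pi.single i 1) ⬝ᵥ Λ.map ev *ᵥ y = ev f * y i := by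
    rw [dotProduct_comm, sym_dot (h3.sm.symm.map ev), mulVec_mulVec, sd_mul h3, smul_mulVec,
      one_mulVec, single_one_dotProduct, Pi.smul_apply, smul_eq_mul]
  have hp : ((φ.map ev *ᵥ Pi.single i 1) ⬝ᵥ fun i => ev (α i)) ∈
      AA (6 + (-l - d i + (m + l))) :=
    dot_mem (mem_Fr.1 hy) (fun i => (h3.degα i).mem) fun i => by ring
  refine div_f hf h6 h2.deg h2.ndvd hp (Submodule.add_mem _ (Submodule.sub_mem _
    (AA_cast (AA_mul h2.deg.mem (mem_Fr.1 y1 i)) (by ring)) (AA_cast q1 (by ring)))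
    (AA_cast (AA_mul hp a1) (by ring))) ?_
  rw [h4] at q2
  have h5 : ev γ = (y ⬝ᵥ fun i => ev (α i)) + ev f * a := h2.val.trans a2
  linear_combination ((φ.map ev *ᵥ Pi.single i 1) ⬝ᵥ fun i => ev (α i)) * h5 - q2

theorem gn_dual (hf : Prime f) (h6 : Hg 6 f) (h1 : QL f U G l) (h2 : QD f U G l m w₀ γ)
    (h3 : SD f U G l m w₀ γ d φ Λ α) (k : ℤ) :
    sharp (fromBlocks G 0 0 (-φ.map ev)) (GN f U G l m w₀ d φ α) l k =
      GN f U G l m w₀ d φ α k := by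
  have hF := h6.ev_ne hf.ne_zero
  refine le_antisymm (fun x hx => ?_) fun x hx => mem_sharp.2 fun j v hv =>
    gn_int hf h6 h1 h2 h3 hv hx
  have hx' := mem_sharp.1 hx
  simp only [dot_blocks] at hx'
  have hy : φ.map ev *ᵥ (x ∘ Sum.inr) ∈ Fr d k := mem_Fr.2 fun i => by
    have := Submodule.neg_mem _ (hx' _ _ (gn_right hf h6 h2 h3 i))
    rw [Sum.elim_comp_inl, Sum.elim_comp_inr, zero_dotProduct, zero_sub, neg_neg,
      single_one_dotProduct] at this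
    exact AA_cast this (by ring)
  refine mem_GN.2 ⟨⟨mem_sharp.2 fun j v hv => ?_, hy⟩, ?_⟩
  · have := hx' _ _ (gn_left h1 h2 hv)
    rwa [Sum.elim_comp_inl, Sum.elim_comp_inr, zero_dotProduct, sub_zero] at this
  obtain ⟨y, y1, a, a1, a2⟩ := h3.onto m w₀ h2.mem
  obtain ⟨x0, b1, b2, b3⟩ := gn_onto hF h3 h2.mem y1 a1 a2
  have h4 := hx' _ _ b1
  rw [b2, sd_inv hF h3, b3, sym_dot h1.symm] at h4
  obtain ⟨q, q1, q2⟩ := sd_cong hf h6 h2 h3 y1 hy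
  generalize φ.map ev *ᵥ (x ∘ Sum.inr) = y' at hy h4 q2
  have hp : (y' ⬝ᵥ fun i => ev (α i)) ∈ AA (6 + (k + (m + l))) :=
    dot_mem (mem_Fr.1 hy) (fun i => (h3.degα i).mem) fun i => by ring
  have h5 : ev γ = (y ⬝ᵥ fun i => ev (α i)) + ev f * a := h2.val.trans a2
  have h7 := div_f hf h6 h2.deg h2.ndvd (Submodule.sub_mem _
    (AA_cast (lam_mem h3 y1 hy) (by ring)) hp)
    (Submodule.sub_mem _ (AA_cast q1 (by ring)) (AA_cast (AA_mul a1 hp) (by ring)))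
    (by linear_combination q2 - (y' ⬝ᵥ fun i => ev (α i)) * h5)
  have h8 := Submodule.add_mem _ (AA_cast (j := k + (m + l)) h4 (by ring)) h7
  rwa [mul_sub, sub_add_sub_cancel] at h8

theorem glue (hN : stNOETH) : stGLUE := by
  intro f U G l m w₀ γ n d φ Λ α h6 hs h1 h2 h3
  have hf := prime_of_smoothP (hg_nat.1 h6) (by decide) hs
  have hF := h6.ev_ne hf.ne_zero
  have hd := gn_dual hf h6 h1 h2 h3
  have hfam : Fam (GN f U G l m w₀ d φ α) := fam_GN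
  have hinv (c : Fin n → K) : (ev f)⁻¹ • Λ.map ev *ᵥ (φ.map ev *ᵥ c) = c := by
    have := congrArg transpose (sd_mul h3)
    rw [transpose_mul, (h3.symm.map ev).eq, (h3.sm.symm.map ev).eq, transpose_smul,
      transpose_one] at this
    rw [mulVec_mulVec, this, smul_mulVec, one_mulVec, inv_smul_smul₀ hF]
  have hfg : FG (GN f U G l m w₀ d φ α) := by
    let e := (LinearEquiv.sumArrowLequivProdArrow (Fin 4) (Fin n) K K).symm.toLinearMap
    refine hN _ _ _ (((h1.lat.fg.sh 6).map (e ∘ₗ LinearMap.inl K _ _ ∘ₗ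
      ((ev f)⁻¹ • LinearMap.id))).sup ((fg_Fr d).map (e ∘ₗ LinearMap.inr K _ _ ∘ₗ
        ((ev f)⁻¹ • (Λ.map ev).mulVecLin)))) hfam fun k x hx => ?_
    obtain ⟨⟨a1, a2⟩, -⟩ := mem_GN.1 hx
    refine Submodule.mem_sup.2 ⟨_, ⟨_, h2.ann _ _ a1, rfl⟩, _, ⟨_, a2, rfl⟩, ?_⟩
    change Sum.elim ((ev f)⁻¹ • ev f • x ∘ Sum.inl) 0 +
      Sum.elim (0 : Fin 4 → K) ((ev f)⁻¹ • Λ.map ev *ᵥ (φ.map ev *ᵥ (x ∘ Sum.inr))) = x
    rw [hinv, inv_smul_smul₀ hF]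
    funext i
    rcases i with i | i <;> simp
  refine ⟨GN f U G l m w₀ d φ α, ⟨hfam, hfg, fun x => ?_, ?_⟩, hd, ?_⟩
  · obtain ⟨k, a, y, y0, y1, y2⟩ := h1.lat.full.exists_AA h1.lat.fam (x ∘ Sum.inl)
    obtain ⟨b, z, z0, z1, z2⟩ := exists_frac_fun (x ∘ Sum.inr)
    refine ⟨|b + k| + ∑ i, |a + b + (-l - d i)|, z * y, mul_ne_zero z0 y0, ?_⟩
    have h4 : (z * y) • x = z • Sum.elim (y • x ∘ Sum.inl) 0 +
        ∑ i, (y * (z * (x ∘ Sum.inr) i)) • Sum.elim (0 : Fin 4 → K) (Pi.single i 1) := by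
      funext i
      rcases i with i | i
      · simp [mul_assoc]
      · simp [Pi.single_apply, mul_left_comm, mul_assoc]
    have h5 := Finset.sum_nonneg fun i (_ : i ∈ Finset.univ) => abs_nonneg (a + b + (-l - d i))
    rw [h4]
    refine Submodule.add_mem _ (hfam.mono ?_ (hfam.smul z1 (gn_left h1 h2 y2) rfl))
      (Submodule.sum_mem _ fun i _ => hfam.mono ?_
        (hfam.smul (AA_mul y1 (z2 i)) (gn_right hf h6 h2 h3 i) rfl))
    · have := le_abs_self (b + k)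
      omega
    · have := Finset.single_le_sum (fun i _ => abs_nonneg (a + b + (-l - d i))) (Finset.mem_univ i)
      have := le_abs_self (a + b + (-l - d i))
      have := abs_nonneg (b + k)
      omega
  · rw [← funext hd]
    exact (refl_dual _ _).sh l
  obtain ⟨N, hN⟩ := h3.sat
  filter_upwards [eventually_all.2 fun i => eventually_gt_atTop (d i + 3 * N)] with k hk
  let p := (φ.map ev).mulVecLin ∘ₗ LinearMap.funLeft K K (Sum.inr : Fin n → Fin 4 ⊕ Fin n)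
  let π : GN f U G l m w₀ d φ α k →ₗ[ℂ] Fr d k :=
    ((p.restrictScalars ℂ).domRestrict _).codRestrict _ fun x => (mem_GN.1 x.2).1.2
  have hπ : Function.Surjective π := by
    rintro ⟨y, hy⟩
    have h4 : y ∈ (GN f U G l m w₀ d φ α k).map (p.restrictScalars ℂ) := by
      rw [← Finset.univ_sum_single y]
      refine Submodule.sum_mem _ fun i _ => ?_
      obtain ⟨z, z1, z2⟩ := comb_pow N (by have := hk i; omega) (mem_Fr.1 hy i)
      rw [z2, ← LinearMap.coe_single K (fun _ => K), map_sum]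
      refine Submodule.sum_mem _ fun j _ => ?_
      obtain ⟨w, w1, a, a1, a2⟩ := hN i j
      obtain ⟨x, x1, -, x2⟩ := gn_onto hF h3 w1 (y := Pi.single i (tvec j ^ N))
        (mem_Fr.2 fun b => by
          by_cases hb : b = i
          · rw [hb, Pi.single_eq_same]
            exact AA_cast (AA_pow (tvec_mem j) N) (by ring)
          · rw [Pi.single_eq_of_ne hb]
            exact Submodule.zero_mem _) (Submodule.neg_mem _ a1) (by
          rw [single_dotProduct, a2]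
          ring)
      refine ⟨z j • x, hfam.smul (z1 j) x1 (by ring), ?_⟩
      rw [LinearMap.restrictScalars_apply, map_smul, show p x = _ from x2, ← Pi.single_smul,
        smul_eq_mul, LinearMap.coe_single]
    obtain ⟨x, x1, x2⟩ := h4
    exact ⟨⟨x, x1⟩, Subtype.ext x2⟩
  let ρ : U k →ₗ[ℂ] LinearMap.ker π :=
    { toFun := fun u => ⟨⟨Sum.elim u.1 0, gn_left h1 h2 u.2⟩, Subtype.ext (mulVec_zero (φ.map ev))⟩
      map_add' := fun x y => Subtype.ext (Subtype.ext (funext fun i => by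
        rcases i with i | i <;> simp))
      map_smul' := fun c x => Subtype.ext (Subtype.ext (funext fun i => by
        rcases i with i | i <;> simp)) }
  have hρ : Function.Bijective ρ := ⟨fun x y h => Subtype.ext (funext fun i =>
    congrFun (congrArg (fun t => t.1.1) h) (Sum.inl i)), fun x => by
      have h4 : φ.map ev *ᵥ (x.1.1 ∘ Sum.inr) = 0 := congrArg Subtype.val x.2
      obtain ⟨⟨a1, -⟩, a3⟩ := mem_GN.1 x.1.2
      rw [h4, zero_dotProduct, mul_zero, sub_zero] at a3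
      refine ⟨⟨x.1.1 ∘ Sum.inl, h2.inj _ _ a1 (AA_cast a3 (by ring))⟩,
        Subtype.ext (Subtype.ext ?_)⟩
      have h5 := hinv (x.1.1 ∘ Sum.inr)
      rw [h4, mulVec_zero, smul_zero] at h5
      exact (congrArg (Sum.elim (x.1.1 ∘ Sum.inl)) h5).trans (Sum.elim_comp_inl_inr _)⟩
  have := hfg.finite k
  rw [← π.finrank_range_add_finrank_ker, LinearMap.range_eq_top.2 hπ, finrank_top,
    (LinearEquiv.ofBijective ρ hρ).finrank_eq, add_comm]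

end Vale.Agent.P287Z.G
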