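import Vale.Agent.P287Z.L.Sk
import Vale.Agent.P271.Hilb.UPoly

/-!
# Small toolbox for the filtered model
-/

namespace Vale.Agent.P287Z.V.B

open Module Matrix MvPolynomial Filter Vale.Agent.P287 Vale.Agent.P287.Theta Vale.Agent.P287Z.L

theorem weight_one (m : Fin 3 →₀ ℕ) :
    Finsupp.weight (fun _ => (1 : ℤ)) m = (Finsupp.weight (1 : Fin 3 → ℕ) m : ℕ) := by
  simp [Finsupp.weight_apply, Finsupp.sum]

theorem hg_iff {n : ℕ} {p : P3} : Hg n p ↔ p.IsHomogeneous n :=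
  forall₂_congr fun m _ => by rw [weight_one, Nat.cast_inj]

theorem hg_neg {k : ℤ} {p : P3} (h : Hg k p) (hk : k < 0) : p = 0 := by
  ext m
  by_contra h1
  have := h h1
  rw [weight_one] at this
  omega

theorem hg_cases {k : ℤ} {p : P3} (h : Hg k p) : p = 0 ∨ ∃ n : ℕ, k = n ∧ p.IsHomogeneous n := by
  rcases lt_or_ge k 0 with h1 | h1
  · exact .inl (hg_neg h h1)
  · obtain ⟨n, rfl⟩ := Int.eq_ofNat_of_zero_le h1
    exact .inr ⟨n, rfl, hg_iff.1 h⟩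

theorem hg_zero (k : ℤ) : Hg k 0 := isWeightedHomogeneous_zero _ _ _

theorem hg_mul {j k n : ℤ} {p q : P3} (hp : Hg j p) (hq : Hg k q) (h : j + k = n) :
    Hg n (p * q) := h ▸ IsWeightedHomogeneous.mul hp hq

theorem hg_add {k : ℤ} {p q : P3} (hp : Hg k p) (hq : Hg k q) : Hg k (p + q) :=
  IsWeightedHomogeneous.add hp hq

theorem hg_sub {k : ℤ} {p q : P3} (hp : Hg k p) (hq : Hg k q) : Hg k (p - q) :=
  (weightedHomogeneousSubmodule ℂ (fun _ : Fin 3 => (1 : ℤ)) k).sub_mem hp hq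

theorem hg_sum {ι : Type*} {k : ℤ} {s : Finset ι} {p : ι → P3} (h : ∀ i ∈ s, Hg k (p i)) :
    Hg k (∑ i ∈ s, p i) := IsWeightedHomogeneous.sum _ _ _ h

theorem hg_C (c : ℂ) : Hg 0 (C c) := isWeightedHomogeneous_C _ _

theorem hg_Xp (i : Fin 3) (n : ℕ) : Hg n (X i ^ n) := hg_iff.2 (isHomogeneous_X_pow i n)

theorem hg_inj {k : ℤ} {p : P3} (h : Hg k p) (h0 : ev p = 0) : p = 0 := by
  obtain h1 | ⟨n, -, h1⟩ := hg_cases h
  · exact h1
  · exact cr_inj h1 (crMap_injective ((crMap_cr p).trans (h0.trans (map_zero _).symm)))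

theorem hg_eq {k : ℤ} {p q : P3} (hp : Hg k p) (hq : Hg k q) (h : ev p = ev q) : p = q :=
  sub_eq_zero.1 (hg_inj (hg_sub hp hq) (by rw [map_sub, h, sub_self]))

theorem mem_AA {k : ℤ} {y : K} : y ∈ AA k ↔ ∃ b, Hg k b ∧ ev b = y := Iff.rfl

theorem ev_mem {k : ℤ} {b : P3} (h : Hg k b) : ev b ∈ AA k := ⟨b, h, rfl⟩

theorem AA_mul {j k n : ℤ} {x y : K} (hx : x ∈ AA j) (hy : y ∈ AA k) (h : j + k = n) :
    x * y ∈ AA n := by
  obtain ⟨a, ha, rfl⟩ := hx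
  obtain ⟨b, hb, rfl⟩ := hy
  exact ⟨a * b, hg_mul ha hb h, map_mul ev a b⟩

theorem AA_cast {j k : ℤ} {x : K} (hx : x ∈ AA j) (h : j = k) : x ∈ AA k := h ▸ hx

theorem AA_neg {k : ℤ} {x : K} (hx : x ∈ AA k) (hk : k < 0) : x = 0 := by
  obtain ⟨a, ha, rfl⟩ := hx
  rw [hg_neg ha hk, map_zero]

theorem ev_X (i : Fin 3) : ev (X i) = tvec i := aeval_X _ _

theorem ev_C (c : ℂ) : ev (C c) = algebraMap ℂ K c := aeval_C _ _

theorem tp_mem (i : Fin 3) (n : ℕ) : tvec i ^ n ∈ AA n :=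
  ⟨X i ^ n, hg_Xp i n, by rw [← ev_X]; exact map_pow ev _ _⟩

theorem one_mem {k : ℤ} (hk : 0 ≤ k) : (1 : K) ∈ AA k := by
  obtain ⟨n, rfl⟩ := Int.eq_ofNat_of_zero_le hk
  simpa [tvec] using tp_mem 0 n

theorem AA_mono {j k : ℤ} {x : K} (hx : x ∈ AA j) (h : j ≤ k) : x ∈ AA k := by
  simpa using AA_mul hx (one_mem (sub_nonneg.2 h)) (add_sub_cancel j k)

theorem tvec_ne (i : Fin 3) : tvec i ≠ 0 := fun h =>
  X_ne_zero i (hg_inj (k := (1 : ℕ)) (hg_iff.2 (isHomogeneous_X _ i)) ((ev_X i).trans h))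

/-- the homogeneous component -/
noncomputable def cp (k : ℤ) : P3 →ₗ[ℂ] P3 :=
  weightedHomogeneousComponent (fun _ : Fin 3 => (1 : ℤ)) k

theorem cp_hg (k : ℤ) (p : P3) : Hg k (cp k p) :=
  weightedHomogeneousComponent_isWeightedHomogeneous k p

theorem cp_self {k : ℤ} {p : P3} (h : Hg k p) : cp k p = p :=
  IsWeightedHomogeneous.weightedHomogeneousComponent_same h

theorem cp_mul {j k n : ℤ} {a : P3} (ha : Hg j a) (b : P3) (h : j + k = n) :
    cp n (a * b) = a * cp k b := by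
  let _ := weightedGradedAlgebra ℂ (fun _ : Fin 3 => (1 : ℤ))
  subst h
  exact (weightedDecomposition.decompose'_apply ℂ _ _ _).symm.trans
    ((DirectSum.coe_decompose_mul_add_of_left_mem
      (weightedHomogeneousSubmodule ℂ (fun _ : Fin 3 => (1 : ℤ))) (j := k) (b := b) ha).trans
      (congrArg (a * ·) (weightedDecomposition.decompose'_apply ℂ _ b k)))

theorem cp_mulVec {ι κ : Type} [Fintype κ] {S : Matrix ι κ P3} {e : ι → ℤ} {d : κ → ℤ}
    (hS : ∀ i j, Hg (e i - d j) (S i j)) {x : κ → P3} {y : ι → P3} (hy : ∀ i, Hg (e i) (y i))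
    (h : S *ᵥ x = y) : S *ᵥ (fun j => cp (d j) (x j)) = y := funext fun i => by
  rw [← cp_self (hy i), ← h, mulVec, mulVec, dotProduct, dotProduct, map_sum]
  exact Finset.sum_congr rfl fun j _ => (cp_mul (hS i j) _ (sub_add_cancel _ _)).symm

theorem hg_mulVec {ι κ : Type} [Fintype κ] {S : Matrix ι κ P3} {e : ι → ℤ} {d : κ → ℤ}
    (hS : ∀ i j, Hg (e i - d j) (S i j)) {x : κ → P3} (hx : ∀ j, Hg (d j) (x j)) (i : ι) :
    Hg (e i) ((S *ᵥ x) i) := hg_sum fun j _ => hg_mul (hS i j) (hx j) (sub_add_cancel _ _)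

theorem ev_mulVec {ι κ : Type} [Fintype κ] (S : Matrix ι κ P3) (x : κ → P3) (i : ι) :
    ev ((S *ᵥ x) i) = (S.map ev *ᵥ fun j => ev (x j)) i := by
  simp [mulVec, dotProduct]

theorem mem_Fr {ι : Type} {e : ι → ℤ} {k : ℤ} {x : ι → K} :
    x ∈ Fr e k ↔ ∀ i, x i ∈ AA (k - e i) := by
  simp [Fr, Submodule.mem_pi]

theorem frac (y : K) : ∃ (d : ℕ) (b : P3), b ≠ 0 ∧ Hg d b ∧ ev b * y ∈ AA d := by
  obtain ⟨a, b, hb, rfl⟩ := IsFractionRing.div_surjective (A := MvPolynomial (Fin 2) ℂ) y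
  obtain ⟨d1, h1⟩ := H925.exists_homogenisation a
  obtain ⟨d2, h2⟩ := H925.exists_homogenisation b
  obtain ⟨P, hP, rfl⟩ := h1 (d1 + d2) (by omega)
  obtain ⟨Q, hQ, rfl⟩ := h2 (d1 + d2) (by omega)
  have k (p : P3) : ev p = algebraMap (MvPolynomial (Fin 2) ℂ) K (H925.dehom p) := by
    rw [← crTo_crInv (H925.dehom p), ← crMap_eq]
    exact (crMap_cr p).symm
  have h0 := IsFractionRing.to_map_ne_zero_of_mem_nonZeroDivisors (K := K) hb
  refine ⟨d1 + d2, Q, fun h => ?_, hg_iff.2 hQ, P, hg_iff.2 hP, ?_⟩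
  · rw [h, map_zero, map_zero] at h0
    exact h0 rfl
  · change ev P = _
    rw [k, k, mul_div_cancel₀ _ h0]

theorem frac' {ι : Type} [Fintype ι] (y : ι → K) (e : ι → ℤ) :
    ∃ (d k : ℤ) (b : P3), b ≠ 0 ∧ Hg d b ∧ ev b • y ∈ Fr e k := by
  classical
  choose d b h0 h1 h2 using fun i => frac (y i)
  refine ⟨∑ i, (d i : ℤ), ∑ i, (d i : ℤ) + ∑ i, |e i|, ∏ i, b i,
    Finset.prod_ne_zero_iff.2 fun i _ => h0 i,
    IsWeightedHomogeneous.prod _ _ _ fun i _ => h1 i, mem_Fr.2 fun i => ?_⟩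
  rw [Pi.smul_apply, smul_eq_mul, ← Finset.prod_erase_mul _ _ (Finset.mem_univ i), map_mul,
    mul_assoc]
  refine AA_mono (AA_mul (ev_mem (IsWeightedHomogeneous.prod _ _ _ fun i _ => h1 i)) (h2 i)
    (Finset.sum_erase_add _ _ (Finset.mem_univ i))) ?_
  have := Finset.single_le_sum (fun i _ => abs_nonneg (e i)) (Finset.mem_univ i)
  have := le_abs_self (e i)
  omega

theorem AA_equiv (k : ℤ) :
    Nonempty (weightedHomogeneousSubmodule ℂ (fun _ : Fin 3 => (1 : ℤ)) k ≃ₗ[ℂ] AA k) :=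
  ⟨LinearEquiv.ofBijective (ev.toLinearMap.submoduleMap _) ⟨fun x y h =>
    Subtype.ext (hg_eq x.2 y.2 (congrArg Subtype.val h)), LinearMap.submoduleMap_surjective _ _⟩⟩

theorem ws_eq (n : ℕ) : weightedHomogeneousSubmodule ℂ (fun _ : Fin 3 => (1 : ℤ)) (n : ℤ) =
    homogeneousSubmodule (Fin 3) ℂ n := Submodule.ext fun _ => hg_iff

theorem AA_bot {k : ℤ} (hk : k < 0) : AA k = ⊥ :=
  (Submodule.eq_bot_iff _).2 fun _ hx => AA_neg hx hk

instance (k : ℤ) : FiniteDimensional ℂ (AA k) := by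
  rcases lt_or_ge k 0 with h | h
  · rw [AA_bot h]
    infer_instance
  · obtain ⟨n, rfl⟩ := Int.eq_ofNat_of_zero_le h
    obtain ⟨e⟩ := AA_equiv n
    have : FiniteDimensional ℂ
        (weightedHomogeneousSubmodule ℂ (fun _ : Fin 3 => (1 : ℤ)) (n : ℤ)) := by
      rw [ws_eq]
      exact P271.Hilb.finite_homogeneousSubmodule 2 n
    exact e.finiteDimensional

theorem rk_AA {k : ℤ} (hk : -2 ≤ k) : 2 * (finrank ℂ (AA k) : ℤ) = (k + 1) * (k + 2) := by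
  rcases lt_or_ge k 0 with h | h
  · rw [AA_bot h, finrank_bot]
    obtain rfl | rfl : k = -1 ∨ k = -2 := by omega
    all_goals rfl
  · obtain ⟨n, rfl⟩ := Int.eq_ofNat_of_zero_le h
    obtain ⟨e⟩ := AA_equiv n
    rw [← e.finrank_eq, ws_eq, P271.Hilb.finrank_homogeneousSubmodule 2 n]
    have := Nat.add_one_mul_choose_eq (n + 1) 1
    rw [Nat.choose_one_right] at this
    have h1 := congrArg (Nat.cast : ℕ → ℤ) this
    push_cast at h1
    linear_combination -h1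

theorem rk_AA2 (k : ℤ) :
    2 * (finrank ℂ (AA k) : ℤ) + 2 * finrank ℂ (AA (-3 - k)) = (k + 1) * (k + 2) := by
  rcases lt_or_ge k (-2) with h | h
  · rw [AA_bot (k := k) (by omega), finrank_bot, rk_AA (by omega)]
    push_cast
    ring
  · rw [AA_bot (k := -3 - k) (by omega), finrank_bot, rk_AA h]
    simp

theorem Fr_equiv {ι : Type} (e : ι → ℤ) (k : ℤ) :
    Nonempty (Fr e k ≃ₗ[ℂ] ∀ i, AA (k - e i)) :=
  ⟨{ toFun := fun x i => ⟨x.1 i, mem_Fr.1 x.2 i⟩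
     invFun := fun x => ⟨fun i => x i, mem_Fr.2 fun i => (x i).2⟩
     map_add' := fun _ _ => rfl
     map_smul' := fun _ _ => rfl
     left_inv := fun _ => rfl
     right_inv := fun _ => rfl }⟩

instance {ι : Type} [Fintype ι] (e : ι → ℤ) (k : ℤ) : FiniteDimensional ℂ (Fr e k) := by
  obtain ⟨f⟩ := Fr_equiv e k
  exact f.symm.finiteDimensional

theorem rk_Fr {ι : Type} [Fintype ι] (e : ι → ℤ) (k : ℤ) :
    (finrank ℂ (Fr e k) : ℤ) = ∑ i, (finrank ℂ (AA (k - e i)) : ℤ) := by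
  obtain ⟨f⟩ := Fr_equiv e k
  rw [f.finrank_eq, Module.finrank_pi_fintype, Nat.cast_sum]

theorem hp_Fr {ι : Type} [Fintype ι] (e : ι → ℤ) : ∀ᶠ k : ℤ in atTop,
    2 * (finrank ℂ (Fr e k) : ℤ) = Fintype.card ι * (k ^ 2 + 3 * k) + 2 * (-∑ i, e i) * k +
      ∑ i, (1 - e i) * (2 - e i) := by
  filter_upwards [eventually_all.2 fun i => eventually_ge_atTop (e i)] with k hk
  rw [rk_Fr, Finset.mul_sum, Finset.sum_congr rfl fun i _ => rk_AA (by have := hk i; omega),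
    ← Finset.card_univ, ← nsmul_eq_mul, ← Finset.sum_const, ← Finset.sum_neg_distrib,
    Finset.mul_sum, Finset.sum_mul, ← Finset.sum_add_distrib, ← Finset.sum_add_distrib]
  exact Finset.sum_congr rfl fun i _ => by ring

theorem poly_unique {R c x R' c' x' : ℤ} (h : ∀ᶠ k : ℤ in atTop,
    R * (k ^ 2 + 3 * k) + c * k + x = R' * (k ^ 2 + 3 * k) + c' * k + x') :
    R = R' ∧ c = c' ∧ x = x' := by
  obtain ⟨a, ha⟩ := eventually_atTop.1 h
  have h0 := ha a le_rfl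
  have h1 := ha (a + 1) (by omega)
  have h2 := ha (a + 2) (by omega)
  have h3 : 2 * R = 2 * R' := by linear_combination h2 - 2 * h1 + h0
  obtain rfl : R = R' := by omega
  obtain rfl : c = c' := by linear_combination h1 - h0
  exact ⟨rfl, rfl, by linear_combination h0⟩

section Fam

variable {V : Type} [AddCommGroup V] [Module ℂ V] [Module K V] [IsScalarTower ℂ K V]
  {ι : Type} [Fintype ι] {u : ι → V} {e : ι → ℤ} {k : ℤ} {L : ℤ → Submodule ℂ V}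

theorem mem_Sp {v : V} : v ∈ Sp u e k ↔ ∃ c : ι → K, (∀ i, c i ∈ AA (k - e i)) ∧
    ∑ i, c i • u i = v :=
  exists_congr fun _ => and_congr mem_Fr Iff.rfl

theorem mem_Syz {c : ι → K} : c ∈ Syz u e k ↔ (∀ i, c i ∈ AA (k - e i)) ∧ ∑ i, c i • u i = 0 :=
  and_congr mem_Fr Iff.rfl

theorem gen_mem (h : Gen L u e) (i : ι) : u i ∈ L (e i) := by
  classical
  rw [h, mem_Sp]
  refine ⟨Pi.single i 1, fun j => ?_, by simp [Pi.single_apply]⟩
  by_cases hj : j = i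
  · rw [hj, Pi.single_eq_same]
    exact one_mem (by omega)
  · rw [Pi.single_eq_of_ne hj]
    exact Submodule.zero_mem _

theorem gen_span (h : Gen L u e) (hf : Full L) (v : V) : ∃ c : ι → K, ∑ i, c i • u i = v := by
  obtain ⟨k, y, hy, h1⟩ := hf v
  rw [h] at h1
  obtain ⟨c, -, hc⟩ := mem_Sp.1 h1
  exact ⟨fun i => y⁻¹ * c i, by
    simp only [mul_smul, ← Finset.smul_sum, hc, inv_smul_smul₀ hy]⟩

omit [IsScalarTower ℂ K V] in
theorem fam_mono (h : Fam L) {j : ℤ} {v : V} (hv : v ∈ L j) (hj : j ≤ k) : v ∈ L k := by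
  simpa using h _ _ _ (one_mem (sub_nonneg.2 hj)) v hv

omit [IsScalarTower ℂ K V] in
theorem refl_sat (h : Refl L) : Sat L := fun k v hv => h k v fun g hg => by
  obtain ⟨i, hi⟩ : ∃ i : Fin 3, ¬ g ∣ X i := by
    by_contra h1
    push Not at h1
    have h2 := (hg.1.irreducible.associated_of_dvd (X_prime (i := 0)).irreducible (h1 0)).symm.dvd
    have h3 := X_dvd_X.1 (h2.trans (h1 1))
    exact absurd h3 (by decide)
  exact ⟨1, tvec i, ⟨X i, by simpa using hg_Xp i 1, ev_X i, hi⟩, add_comm k 1 ▸ hv i⟩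

end Fam

theorem bf_apply {ι : Type} [Fintype ι] [DecidableEq ι] (G : Matrix ι ι K) (v w : ι → K) :
    bf G v w = v ⬝ᵥ G *ᵥ w := Matrix.toLinearMap₂'_apply' _ _ _

theorem mem_sharp {ι : Type} [Fintype ι] [DecidableEq ι] {G : Matrix ι ι K}
    {U : ℤ → Submodule ℂ (ι → K)} {l k : ℤ} {w : ι → K} :
    w ∈ sharp G U l k ↔ ∀ j, ∀ v ∈ U j, v ⬝ᵥ G *ᵥ w ∈ AA (j + (k + l)) :=
  forall₃_congr fun _ _ _ => by rw [bf_apply]

theorem mem_sharp_gen {ι κ : Type} [Fintype ι] [DecidableEq ι] [Fintype κ] {G : Matrix ι ι K}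
    {U : ℤ → Submodule ℂ (ι → K)} {u : κ → ι → K} {e : κ → ℤ} (h : Gen U u e) {l k : ℤ}
    {w : ι → K} : w ∈ sharp G U l k ↔ ∀ a, u a ⬝ᵥ G *ᵥ w ∈ AA (e a + (k + l)) := by
  refine mem_sharp.trans ⟨fun h1 a => h1 _ _ (gen_mem h a), fun h1 j v hv => ?_⟩
  rw [h] at hv
  obtain ⟨c, hc, rfl⟩ := mem_Sp.1 hv
  rw [sum_dotProduct]
  exact Submodule.sum_mem _ fun a _ => by
    rw [smul_dotProduct, smul_eq_mul]
    exact AA_mul (hc a) (h1 a) (by ring)

end Vale.Agent.P287Z.V.B
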