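import Vale.Agent.P287Z.V.Pr1
import Vale.Agent.P287Z.V.Bs

/-!
# A lattice that is symmetrically self-dual with values in the canonical sheaf has even Euler
characteristic
-/

namespace Vale.Agent.P287Z.V

open Module Matrix MvPolynomial Filter Vale.Agent.P287 Vale.Agent.P287.Theta Vale.Agent.P287Z.L
  Vale.Agent.P287Z.V.B

theorem chi_eq {V : Type} [AddCommGroup V] [Module ℂ V] {L : ℤ → Submodule ℂ V} {R c x : ℤ}
    (h : HP L R c x) : chi L = x ∧ c1 L = c := by
  have k {R' c' x' : ℤ} (h' : HP L R' c' x') : c' = c ∧ x' = x := by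
    have := poly_unique (R := R') (c := 2 * c') (x := 2 * x') (R' := R) (c' := 2 * c)
      (x' := 2 * x) (by filter_upwards [h, h'] with k a b; rw [← a, ← b])
    omega
  obtain ⟨R1, c1, h1⟩ := Classical.epsilon_spec (p := fun x => ∃ R c, HP L R c x) ⟨x, R, c, h⟩
  obtain ⟨R2, x2, h2⟩ := Classical.epsilon_spec (p := fun c => ∃ R x, HP L R c x) ⟨c, R, x, h⟩
  exact ⟨(k h1).2, (k h2).1⟩

section

variable {ι : Type} [Fintype ι] [DecidableEq ι] {G : Matrix ι ι K}
  {N : ℤ → Submodule ℂ (ι → K)} {n₀ n₁ : ℕ} {u : Fin n₀ → ι → K} {e : Fin n₀ → ℤ}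
  {S : Matrix (Fin n₀) (Fin n₁) P3} {d : Fin n₁ → ℤ}

omit [Fintype ι] [DecidableEq ι] in
theorem rs_rel (h : Rs N u e S d) (j : Fin n₁) : ∑ a, ev (S a j) • u a = 0 :=
  (mem_Syz.1 (gen_mem h.syz j)).2

omit [Fintype ι] [DecidableEq ι] in
theorem rs_span (h : Rs N u e S d) {c : Fin n₀ → K} (hc : ∑ a, c a • u a = 0) :
    ∃ r : Fin n₁ → K, c = S.map ev *ᵥ r := by
  obtain ⟨D, k, b, b0, b1, b2⟩ := frac' c e
  have h0 : ev b ≠ 0 := fun h1 => b0 (hg_inj b1 h1)
  have h1 : ev b • c ∈ Syz u e k := mem_Syz.2 ⟨mem_Fr.1 b2, by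
    simp only [Pi.smul_apply, smul_eq_mul, mul_smul, ← Finset.smul_sum, hc, smul_zero]⟩
  rw [h.syz] at h1
  obtain ⟨r, -, hr⟩ := mem_Sp.1 h1
  refine ⟨(ev b)⁻¹ • r, ?_⟩
  rw [mulVec_smul, eq_inv_smul_iff₀ h0, ← hr]
  funext a
  simp [mulVec, dotProduct, mul_comm]

/-- a vector killed by the transpose of the syzygy matrix is given by pairing with a vector -/
theorem rs_dual (hG0 : G.det ≠ 0) (h : Rs N u e S d) (hf : Full N) {z : Fin n₀ → K}
    (hz : (S.map ev)ᵀ *ᵥ z = 0) : ∃ w, ∀ a, u a ⬝ᵥ G *ᵥ w = z a := by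
  choose c hc using fun i : ι => gen_span h.gen hf (Pi.single i 1)
  refine ⟨G⁻¹ *ᵥ fun i => c i ⬝ᵥ z, fun a => ?_⟩
  rw [mulVec_mulVec, mul_nonsing_inv _ (isUnit_iff_ne_zero.2 hG0), one_mulVec]
  obtain ⟨r, hr⟩ := rs_span h (c := ∑ i, u a i • c i - Pi.single a 1) (by
    simp only [Pi.sub_apply, Finset.sum_apply, Pi.smul_apply, smul_eq_mul, sub_smul,
      Finset.sum_sub_distrib, Finset.sum_smul, mul_smul]
    rw [Finset.sum_comm]
    simp only [← Finset.smul_sum, hc]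
    rw [sub_eq_zero]
    refine (Finset.sum_congr rfl fun i _ => ?_).trans ((Finset.univ_sum_single (u a)).trans ?_)
    · rw [← Pi.single_smul, smul_eq_mul, mul_one]
    · simp [Pi.single_apply])
  have h1 := congrArg (· ⬝ᵥ z) hr
  simp only [sub_dotProduct, single_one_dotProduct, sum_dotProduct, smul_dotProduct] at h1
  rw [dotProduct_comm, dotProduct_mulVec, ← mulVec_transpose, hz, zero_dotProduct,
    sub_eq_zero] at h1
  exact h1

theorem rs_nd (hG0 : G.det ≠ 0) (h : Rs N u e S d) (hf : Full N) {w : ι → K}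
    (hw : ∀ a, u a ⬝ᵥ G *ᵥ w = 0) : w = 0 :=
  eq_zero_of_mulVec_eq_zero hG0 (funext fun i => by
    obtain ⟨c, hc⟩ := gen_span h.gen hf (Pi.single i 1)
    rw [← single_one_dotProduct i (G *ᵥ w), ← hc, sum_dotProduct]
    exact Finset.sum_eq_zero fun a _ => by rw [smul_dotProduct, hw, smul_zero])

omit [DecidableEq ι] in
theorem ev_T {T : Matrix (Fin n₀) (Fin n₀) P3} (hT : ∀ a b, ev (T a b) = u a ⬝ᵥ G *ᵥ u b)
    (b : Fin n₀ → P3) (a : Fin n₀) : ev ((T *ᵥ b) a) = u a ⬝ᵥ G *ᵥ ∑ i, ev (b i) • u i := by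
  simp only [mulVec, dotProduct, map_sum, map_mul, hT, Finset.sum_apply, Pi.smul_apply,
    smul_eq_mul, Finset.mul_sum, Finset.sum_mul]
  rw [Finset.sum_comm]
  refine Finset.sum_congr rfl fun i _ => ?_
  rw [Finset.sum_comm]
  exact Finset.sum_congr rfl fun j _ => Finset.sum_congr rfl fun k _ => by ring

end

/-- the tuples that satisfy the equations and the degree conditions -/
noncomputable def LD {n₀ n₁ : ℕ} (n : ℕ) (S : Matrix (Fin n₀) (Fin n₁) P3)
    (T : Matrix (Fin n₀) (Fin n₀) P3) (d : Fin n₁ → ℤ) : Submodule ℂ ((Fin n₁ → P3) ×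
      (Fin 3 → Fin n₀ → P3) × (Fin 3 → Fin n₀ → P3) × (Fin n₁ → P3)) where
  carrier := {x | Lf n S T x ∧ (∀ j, Hg (d j - 3) (x.1 j)) ∧
    ∀ j, Hg (3 * (n + 1) - d j) (x.2.2.2 j)}
  zero_mem' := ⟨⟨by simp, by simp, by simp, by simp, by simp⟩, fun _ => hg_zero _,
    fun _ => hg_zero _⟩
  add_mem' := fun ⟨h, h1, h2⟩ ⟨h', h1', h2'⟩ => ⟨⟨fun i => by
      simp only [Prod.snd_add, Prod.fst_add, Pi.add_apply, mulVec_add, h.a, h'.a, smul_add],
    by simp only [Prod.snd_add, Prod.fst_add, Pi.add_apply, mulVec_add, h.b0, h'.b0, smul_add]; abel,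
    by simp only [Prod.snd_add, Prod.fst_add, Pi.add_apply, mulVec_add, h.b1, h'.b1, smul_add]; abel,
    by simp only [Prod.snd_add, Prod.fst_add, Pi.add_apply, mulVec_add, h.b2, h'.b2, smul_add]; abel,
    by simp only [Prod.snd_add, Prod.fst_add, Pi.add_apply, mulVec_add, h.c, h'.c, smul_add]; abel⟩,
    fun j => hg_add (h1 j) (h1' j), fun j => hg_add (h2 j) (h2' j)⟩
  smul_mem' := fun c _ ⟨h, h1, h2⟩ => ⟨⟨fun i => by
      simp only [Prod.smul_snd, Prod.smul_fst, Pi.smul_apply, mulVec_smul, h.a, smul_comm c],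
    by simp only [Prod.smul_snd, Prod.smul_fst, Pi.smul_apply, mulVec_smul, h.b0, smul_sub,
      smul_comm c],
    by simp only [Prod.smul_snd, Prod.smul_fst, Pi.smul_apply, mulVec_smul, h.b1, smul_sub,
      smul_comm c],
    by simp only [Prod.smul_snd, Prod.smul_fst, Pi.smul_apply, mulVec_smul, h.b2, smul_sub,
      smul_comm c],
    by simp only [Prod.smul_snd, Prod.smul_fst, Pi.smul_apply, mulVec_smul, h.c, smul_add,
      smul_comm c]⟩,
    fun j => (weightedHomogeneousSubmodule ℂ (fun _ : Fin 3 => (1 : ℤ)) _).smul_mem c (h1 j),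
    fun j => (weightedHomogeneousSubmodule ℂ (fun _ : Fin 3 => (1 : ℤ)) _).smul_mem c (h2 j)⟩

theorem coeff_zero_of {n : ℕ} {t : ℤ} {c : P3} (hc : Hg (3 * (n + 1) - t) c)
    (h : ∀ p, Hg (t - 3) p → coeff (soc n) (p * c) = 0) (m : Fin 3 →₀ ℕ) (hm : ∀ i, m i ≤ n) :
    coeff m c = 0 := by
  by_contra h0
  have h1 := hc h0
  have h2 : soc n - m + m = soc n := tsub_add_cancel_of_le fun i => hm i
  have h3 := congrArg (Finsupp.weight fun _ : Fin 3 => (1 : ℤ)) h2
  have h4 : Finsupp.weight (fun _ : Fin 3 => (1 : ℤ)) (soc n) = 3 * n := by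
    rw [Finsupp.weight_apply, Finsupp.sum_fintype _ _ (by simp)]
    simp [soc_apply]
  rw [map_add, h1, h4] at h3
  have h5 := h (monomial (soc n - m) 1) (isWeightedHomogeneous_monomial _ _ _ (by omega))
  rw [← h2, add_tsub_cancel_right, coeff_monomial_mul, one_mul] at h5
  exact h0 h5

theorem par (hRES : stRES) (hRSD : stRSD) (hSP : stSPLIT) : stPAR := by
  intro ι _ _ G N hG hG0 hN hs
  obtain ⟨n₀, u, e, hg⟩ := hN.fg
  obtain ⟨n₁, S, d, h⟩ := hRES _ N n₀ u e (refl_sat hN.refl) hg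
  obtain ⟨n, hn⟩ := exists_left (hSP _ N n₀ n₁ u e S d hN.refl h)
  choose Z hZ using hn
  have hrk := (hRSD _ N n₀ n₁ u e S d h).1
  have hsh {k : ℤ} {w : ι → K} : w ∈ N k ↔ ∀ a, u a ⬝ᵥ G *ᵥ w ∈ AA (e a + (k + -3)) := by
    rw [← hs, mem_sharp_gen hg]
  choose T hT1 hT2 using fun a b => hsh.1 (gen_mem hg b) a
  replace hT2 : ∀ a b, ev (T a b) = u a ⬝ᵥ G *ᵥ u b := hT2
  replace hT1 : ∀ a b, Hg (e a + (e b + -3)) (T a b) := hT1
  have hTs : (of T).IsSymm := Matrix.ext fun a b => hg_eq (hT1 b a)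
    (by rw [show e b + (e a + -3) = e a + (e b + -3) by ring]; exact hT1 a b) (by
      refine (hT2 b a).trans (.trans ?_ (hT2 a b).symm)
      rw [dotProduct_mulVec, ← mulVec_transpose, hG.eq, dotProduct_comm])
  have hTS : of T * S = 0 := Matrix.ext fun a j => hg_inj (k := e a + (d j + -3))
    (hg_sum fun b _ => hg_mul (hT1 a b) (h.deg b j) (by ring)) (by
      refine (ev_T (T := of T) hT2 (fun b => S b j) a).trans ?_
      rw [rs_rel h, mulVec_zero, dotProduct_zero])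
  have hST (k : ℤ) (z : Fin n₀ → P3) (hz : ∀ a, Hg (e a + (k + -3)) (z a)) (h0 : Sᵀ *ᵥ z = 0) :
      ∃ b : Fin n₀ → P3, (∀ a, Hg (k - e a) (b a)) ∧ of T *ᵥ b = z := by
    obtain ⟨w, hw⟩ := rs_dual hG0 h hN.full (z := fun a => ev (z a)) (funext fun j => by
      rw [← transpose_map, ← ev_mulVec, h0, Pi.zero_apply, map_zero, Pi.zero_apply])
    have h1 : w ∈ N k := hsh.2 fun a => hw a ▸ ev_mem (hz a)
    rw [hg] at h1
    obtain ⟨c, hc, rfl⟩ := mem_Sp.1 h1
    choose b b1 b2 using hc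
    replace b2 : ∀ a, ev (b a) = c a := b2
    refine ⟨b, b1, funext fun a => hg_eq (hg_sum fun i _ => hg_mul (hT1 a i) (b1 i) (by ring))
      (hz a) ?_⟩
    rw [ev_T (T := of T) hT2, ← hw]
    simp only [b2]
  have hTk (k : ℤ) (s : Fin n₀ → P3) (hs : ∀ a, Hg (k - e a) (s a)) (h0 : of T *ᵥ s = 0) :
      ∃ c : Fin n₁ → P3, (∀ j, Hg (k - d j) (c j)) ∧ S *ᵥ c = s := by
    have h1 : (fun a => ev (s a)) ∈ Syz u e k := mem_Syz.2 ⟨fun a => ev_mem (hs a),
      rs_nd hG0 h hN.full fun a => by rw [← ev_T (T := of T) hT2, h0, Pi.zero_apply, map_zero]⟩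
    rw [h.syz] at h1
    obtain ⟨c, hc, h2⟩ := mem_Sp.1 h1
    choose b b1 b2 using hc
    replace b2 : ∀ a, ev (b a) = c a := b2
    refine ⟨b, b1, funext fun a => hg_eq (hg_sum fun i _ => hg_mul (h.deg a i) (b1 i) (by ring))
      (hs a) ?_⟩
    rw [← congrFun h2 a, ev_mulVec]
    simp [mulVec, dotProduct, b2, mul_comm]
  let π : LD n S (of T) d →ₗ[ℂ] Fr (fun j => 3 - d j) 0 :=
    { toFun := fun x => ⟨fun j => ev (x.1.1 j), mem_Fr.2 fun j =>
        AA_cast (ev_mem (x.2.2.1 j)) (by ring)⟩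
      map_add' := fun x y => Subtype.ext (funext fun j => map_add ev _ _)
      map_smul' := fun c x => Subtype.ext (funext fun j => map_smul ev _ _) }
  have hπ : Function.Surjective π := by
    rintro ⟨x, hx⟩
    choose ξ x1 x2 using mem_Fr.1 hx
    replace x1 : ∀ j, Hg (d j - 3) (ξ j) := fun j => by
      rw [show d j - 3 = 0 - (3 - d j) by ring]; exact x1 j
    have hy (i : Fin 3) : Hg (n + 1) (X i ^ (n + 1)) := by simpa using hg_Xp i (n + 1)
    obtain ⟨a, a1, a2⟩ : ∃ a : Fin 3 → Fin n₀ → P3, (∀ i b, Hg (e b + (n - 2)) (a i b)) ∧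
        ∀ i, Sᵀ *ᵥ a i = (X i ^ (n + 1) : P3) • ξ :=
      ⟨fun i b => cp _ (((Z i)ᵀ *ᵥ ξ) b), fun i b => cp_hg _ _, fun i =>
        cp_mulVec (e := fun j => d j + (n - 2)) (fun j b => by simpa using h.deg b j)
          (fun j => hg_mul (hy i) (x1 j) (by ring)) (by
            rw [mulVec_mulVec, ← transpose_mul, hZ, transpose_smul, transpose_one, smul_mulVec,
              one_mulVec])⟩
    have hb (i j : Fin 3) := hST (2 * (n + 1))
      ((X i ^ (n + 1) : P3) • a j - (X j ^ (n + 1) : P3) • a i)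
      (fun b => hg_sub (hg_mul (hy i) (a1 j b) (by ring)) (hg_mul (hy j) (a1 i b) (by ring)))
      (by rw [mulVec_sub, mulVec_smul, mulVec_smul, a2, a2, smul_comm, sub_self])
    obtain ⟨b0, c0, d0⟩ := hb 1 2
    obtain ⟨b1, c1, d1⟩ := hb 2 0
    obtain ⟨b2, c2, d2⟩ := hb 0 1
    obtain ⟨c, c3, d3⟩ := hTk (3 * (n + 1)) ((X 0 ^ (n + 1) : P3) • b0 +
      (X 1 ^ (n + 1) : P3) • b1 + (X 2 ^ (n + 1) : P3) • b2)
      (fun b => hg_add (hg_add (hg_mul (hy 0) (c0 b) (by ring)) (hg_mul (hy 1) (c1 b) (by ring)))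
        (hg_mul (hy 2) (c2 b) (by ring))) (by
        simp only [mulVec_add, mulVec_smul, d0, d1, d2]
        module)
    exact ⟨⟨(ξ, a, ![b0, b1, b2], c), ⟨a2, d0, d1, d2, d3⟩, x1, c3⟩, Subtype.ext (funext x2)⟩
  let σ : Fr (fun a => 3 - e a) 0 →ₗ[ℂ] Fr (fun j => 3 - d j) 0 :=
    (((S.map ev)ᵀ.mulVecLin.restrictScalars ℂ).domRestrict _).codRestrict _ fun x =>
      mem_Fr.2 fun j => (Submodule.sum_mem _ fun a _ =>
        AA_mul (ev_mem (h.deg a j)) (mem_Fr.1 x.2 a) (by ring) :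
          ∑ a, ev (S a j) * x.1 a ∈ AA (0 - (3 - d j)))
  let B : LinearMap.BilinForm ℂ (LD n S (of T) d) := LinearMap.mk₂ ℂ
    (fun x y => coeff (soc n) (x.1.1 ⬝ᵥ y.1.2.2.2))
    (fun x y z => by simp only [Submodule.coe_add, Prod.fst_add, add_dotProduct, coeff_add])
    (fun c x y => by simp only [Submodule.coe_smul, Prod.smul_fst, smul_dotProduct, coeff_smul])
    (fun x y z => by simp only [Submodule.coe_add, Prod.snd_add, dotProduct_add, coeff_add])
    (fun c x y => by simp only [Submodule.coe_smul, Prod.smul_snd, dotProduct_smul, coeff_smul])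
  have hB (x y : LD n S (of T) d) : B x y = -B y x := y.2.1.skew hTs x.2.1
  obtain ⟨m, hm⟩ := even_codim B hB π hπ (LinearMap.range σ) fun x => ⟨fun ⟨z, hz⟩ y => by
      choose b b1 b2 using mem_Fr.1 z.2
      have h1 : x.1.1 = Sᵀ *ᵥ b := funext fun j => hg_eq (x.2.2.1 j)
        (hg_sum fun a _ => hg_mul (h.deg a j) (b1 a) (by ring)) (by
          rw [ev_mulVec, show (fun a => ev (b a)) = z.1 from funext b2]
          exact (congrFun (congrArg Subtype.val hz) j).symm)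
      exact (congrArg (fun t => coeff (soc n) (t ⬝ᵥ y.1.2.2.2)) h1).trans (y.2.1.rad1 b),
    fun hx => by
      obtain ⟨b, hb⟩ := x.2.1.rad2 hTs hTS fun j => coeff_zero_of (x.2.2.2 j) fun p hp => by
        obtain ⟨y, hy⟩ := hπ ⟨Pi.single j (ev p), mem_Fr.2 fun i => by
          by_cases hi : i = j
          · rw [hi, Pi.single_eq_same]
            exact AA_cast (ev_mem hp) (by ring)
          · rw [Pi.single_eq_of_ne hi]
            exact Submodule.zero_mem _⟩
        have h1 : y.1.1 = Pi.single j p := funext fun i => by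
          have h2 : ev (y.1.1 i) = (Pi.single j (ev p) : Fin n₁ → K) i :=
            congrFun (congrArg Subtype.val hy) i
          by_cases hi : i = j
          · subst hi
            rw [Pi.single_eq_same] at h2 ⊢
            exact hg_eq (y.2.2.1 i) hp h2
          · rw [Pi.single_eq_of_ne hi] at h2 ⊢
            exact hg_inj (y.2.2.1 i) h2
        have h3 : coeff (soc n) (y.1.1 ⬝ᵥ x.1.2.2.2) = 0 :=
          (hB y x).trans (by rw [hx, neg_zero])
        rwa [h1, single_dotProduct] at h3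
      have h4 := cp_mulVec (S := Sᵀ) (e := fun j => d j - 3) (d := fun a => e a - 3)
        (fun j a => by simpa using h.deg a j) x.2.2.1 hb.symm
      refine ⟨⟨fun a => ev (cp (e a - 3) (b a)), mem_Fr.2 fun a =>
        AA_cast (ev_mem (cp_hg _ _)) (by ring)⟩, Subtype.ext (funext fun j => ?_)⟩
      exact (ev_mulVec Sᵀ _ j).symm.trans (congrArg ev (congrFun h4 j))⟩
  let ρ : N 0 →ₗ[ℂ] LinearMap.ker σ :=
    { toFun := fun w => ⟨⟨fun a => u a ⬝ᵥ G *ᵥ w.1, mem_Fr.2 fun a =>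
        AA_cast (hsh.1 w.2 a) (by ring)⟩, Subtype.ext (funext fun j => by
          have h1 := congrArg (· ⬝ᵥ G *ᵥ w.1) (rs_rel h j)
          simp only [sum_dotProduct, smul_dotProduct, zero_dotProduct] at h1
          exact h1)⟩
      map_add' := fun x y => Subtype.ext (Subtype.ext (funext fun a => by
        simp [mulVec_add, dotProduct_add]))
      map_smul' := fun c x => Subtype.ext (Subtype.ext (funext fun a => by
        simp [mulVec_smul, dotProduct_smul])) }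
  have hρ : Function.Bijective ρ := ⟨(injective_iff_map_eq_zero ρ).2 fun w hw =>
    Subtype.ext (rs_nd hG0 h hN.full fun a =>
      congrFun (congrArg (fun t => t.1.1) hw) a), fun z => by
      obtain ⟨w, hw⟩ := rs_dual hG0 h hN.full (z := z.1.1) (congrArg Subtype.val z.2)
      exact ⟨⟨w, hsh.2 fun a => hw a ▸ AA_cast (mem_Fr.1 z.1.2 a) (by ring)⟩,
        Subtype.ext (Subtype.ext (funext hw))⟩⟩
  have h1 := (LinearEquiv.ofBijective ρ hρ).finrank_eq
  have h2 := σ.finrank_range_add_finrank_ker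
  have h3 := hrk 0
  have k {κ : Type} [Fintype κ] (e : κ → ℤ) : 2 * (finrank ℂ (Fr e 0) : ℤ) +
      2 * finrank ℂ (Fr (fun j => 3 - e j) 0) = ∑ i, (1 - e i) * (2 - e i) := by
    rw [rk_Fr, rk_Fr, Finset.mul_sum, Finset.mul_sum, ← Finset.sum_add_distrib]
    refine Finset.sum_congr rfl fun i _ => ?_
    rw [show 0 - (3 - e i) = -3 - (0 - e i) by ring, rk_AA2]
    ring
  have h4 := k e
  have h5 := k d
  have h6 : HP N (n₀ - n₁) (-∑ i, e i + ∑ i, d i) ((finrank ℂ (Fr e 0) : ℤ) +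
      finrank ℂ (Fr (fun j => 3 - e j) 0) - finrank ℂ (Fr d 0) -
      finrank ℂ (Fr (fun j => 3 - d j) 0)) := by
    filter_upwards [hp_Fr e, hp_Fr d] with k a1 a2
    have a3 := congrArg (Nat.cast : ℕ → ℤ) (hrk k)
    rw [Fintype.card_fin] at a1 a2
    push_cast at a3
    linear_combination 2 * a3 + a1 - a2 - h4 + h5
  rw [(chi_eq h6).1]
  exact ⟨finrank ℂ (N 0) - m, by omega⟩

end Vale.Agent.P287Z.V
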