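import Vale.Agent.P287Z.V.Wt
import Vale.Agent.P287Z.V.Par
import Vale.Agent.P287Z.L.Basic2

/-!
# Quadratic lattices of rank four with smooth discriminant: nets, conics, or a parity condition
-/

namespace Vale.Agent.P287Z.V

open Module Matrix MvPolynomial Filter Vale.Agent.P287 Vale.Agent.P287.Theta Vale.Agent.P287.H925

theorem polar {K ι κ : Type*} [Field K] [CharZero K] [Fintype ι] [Fintype κ] {G : Matrix ι ι K}
    {A : Matrix κ κ K} (hG : G.IsSymm) (hA : A.IsSymm) (ψ : (ι → K) →ₗ[K] (κ → K))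
    (h : ∀ v, ψ v ⬝ᵥ A *ᵥ ψ v = v ⬝ᵥ G *ᵥ v) (v w : ι → K) : ψ v ⬝ᵥ A *ᵥ ψ w = v ⬝ᵥ G *ᵥ w := by
  have h1 := h (v + w)
  simp only [map_add, mulVec_add, add_dotProduct, dotProduct_add, h, symm_dot hG w v,
    symm_dot hA (ψ w) (ψ v)] at h1
  exact mul_left_cancel₀ two_ne_zero (by linear_combination h1)

/-- splitting off the last coordinate -/
def lastE (K ι : Type) [Field K] : (Fin 4 ⊕ (ι ⊕ Fin 1) → K) ≃ₗ[K] (Fin 4 ⊕ ι → K) × K where
  toFun x := (x ∘ Sum.map id Sum.inl, x (Sum.inr (Sum.inr 0)))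
  invFun y := Sum.elim (y.1 ∘ Sum.inl) (Sum.elim (y.1 ∘ Sum.inr) fun _ => y.2)
  map_add' _ _ := rfl
  map_smul' _ _ := rfl
  left_inv x := funext fun i => by
    rcases i with i | i | i
    exacts [rfl, rfl, congrArg (fun j => x (Sum.inr (Sum.inr j))) (Subsingleton.elim _ _)]
  right_inv y := Prod.ext (funext fun i => by rcases i with i | i <;> rfl) rfl

theorem lastE_bil {K ι : Type} [Field K] [Fintype ι] [DecidableEq ι] (G : Matrix (Fin 4) (Fin 4) K)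
    (A : Matrix ι ι K) (x y : Fin 4 ⊕ (ι ⊕ Fin 1) → K) :
    Matrix.toBilin' (fromBlocks G 0 0 (-fromBlocks A 0 0 (1 : Matrix (Fin 1) (Fin 1) K))) x y =
      Matrix.toBilin' (fromBlocks G 0 0 (-A)) (lastE K ι x).1 (lastE K ι y).1 -
        (lastE K ι x).2 * (lastE K ι y).2 := by
  rw [bil_blocks, bil_blocks, fromBlocks_mulVec, sub_sub]
  conv_lhs => rw [← Sum.elim_comp_inl_inr (x ∘ Sum.inr)]
  rw [sumElim_dotProduct_sumElim, zero_mulVec, zero_mulVec, add_zero, zero_add, one_mulVec]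
  simp only [dotProduct, Fin.sum_univ_one]
  rfl

theorem lag_blocks {ι : Type} [Fintype ι] [DecidableEq ι] {G : Matrix (Fin 4) (Fin 4) L.K}
    {A : Matrix ι ι L.K} (hG : G.IsSymm) (hA : A.IsSymm) (hsq : IsSquare (G.det * A.det))
    {Λ : Submodule (Polynomial FF) (Fin 4 ⊕ ι → L.K)}
    (h : SelfDual (Matrix.toBilin' (fromBlocks G 0 0 (-A))) ⊤ Λ) {m : ℕ}
    (hm : 4 + Fintype.card ι = 2 * m) : ∃ U : Submodule L.K (Fin 4 ⊕ ι → L.K),
      (∀ x ∈ U, ∀ y ∈ U, (x ∘ Sum.inl) ⬝ᵥ G *ᵥ (y ∘ Sum.inl) =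
        (x ∘ Sum.inr) ⬝ᵥ A *ᵥ (y ∘ Sum.inr)) ∧ finrank L.K U = m := by
  obtain ⟨U, h1, h2⟩ := lag_of (m := m) (isSymm_fromBlocks_iff.2 ⟨hG, by simp, by simp, hA.neg⟩) h
    (by
      obtain ⟨i, hi⟩ := IsAlgClosed.exists_pow_nat_eq (-1 : ℂ) (n := 2) (by norm_num)
      rw [det_fromBlocks_zero₂₁, det_neg, mul_left_comm]
      refine IsSquare.mul (IsSquare.pow _ ⟨algebraMap ℂ L.K i, ?_⟩) hsq
      rw [← map_mul, ← pow_two, hi, map_neg, map_one]) (by simp [hm])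
  refine ⟨U, fun x hx y hy => sub_eq_zero.1 ?_, h1⟩
  rw [← bil_blocks, Matrix.toBilin'_apply']
  exact h2 x hx y hy

theorem qf' (hQD : L.stQD) (hSYM : L.stSYM) (hGL : L.stGLUE) (hPAR : L.stPAR) (hHP : L.stHPX) :
    L.stQF := by
  intro f U G l h6 hs h1
  obtain ⟨⟨m, w₀, γ, h2⟩, hc1⟩ := hQD f U G l h6 hs h1
  obtain ⟨n, d, φ, Λ, α, h3⟩ := hSYM f U G l m w₀ γ h6 hs h1 h2
  obtain ⟨N, hN, hd, hdim⟩ := hGL f U G l m w₀ γ n d φ Λ α h6 hs h1 h2 h3
  have h6' : f.IsHomogeneous 6 := L.hg_nat.1 h6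
  have hp := prime_of_smoothP h6' (by decide) hs
  obtain ⟨c, hc, hdet⟩ := h3.sm.det
  have hG0 : G.det ≠ 0 := fun h0 => by
    obtain ⟨v, hv, hv'⟩ := exists_mulVec_eq_zero_iff.2 h0
    exact hv (h1.aniso v (by rw [hv', dotProduct_zero]))
  have hΦ : (φ.map L.ev).det = algebraMap ℂ L.K c * L.ev f := by
    rw [← L.ev_C, ← map_mul, ← hdet]
    exact (AlgHom.map_det L.ev φ).symm
  have hΦ0 : (φ.map L.ev).det ≠ 0 := by
    rw [hΦ]
    exact mul_ne_zero ((map_ne_zero _).2 hc) (h6.ev_ne hp.ne_zero)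
  have hΦs := h3.sm.symm.map L.ev
  have hsq : IsSquare (G.det * (φ.map L.ev).det) := by
    obtain ⟨s, rfl⟩ := IsAlgClosed.exists_eq_mul_self c
    rw [hΦ, mul_left_comm]
    exact IsSquare.mul ⟨_, map_mul _ s s⟩ h1.sq
  have hB : (fromBlocks G 0 0 (-φ.map L.ev)).IsSymm :=
    isSymm_fromBlocks_iff.2 ⟨h1.symm, by simp, by simp, hΦs.neg⟩
  have hB0 {κ : Type} [Fintype κ] [DecidableEq κ] {A : Matrix κ κ L.K} (hA : A.det ≠ 0) :
      (fromBlocks G 0 0 (-A)).det ≠ 0 := by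
    rw [det_fromBlocks_zero₂₁, det_neg]
    exact mul_ne_zero hG0 (mul_ne_zero (pow_ne_zero _ (by norm_num)) hA)
  obtain ⟨Λ1, hΛ1⟩ := selfDual hB (hB0 hΦ0) hN hd
  have hΨ : (fromBlocks (φ.map L.ev) 0 0 (1 : Matrix (Fin 1) (Fin 1) L.K)).det =
      (φ.map L.ev).det := by rw [det_fromBlocks_zero₂₁, det_one, mul_one]
  have hΨs : (fromBlocks (φ.map L.ev) 0 0 (1 : Matrix (Fin 1) (Fin 1) L.K)).IsSymm :=
    isSymm_fromBlocks_iff.2 ⟨hΦs, by simp, by simp, isSymm_one⟩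
  obtain ⟨Λ2, hΛ2⟩ := sd_ext (hB0 (hΨ.symm ▸ hΦ0)) (lastE L.K (Fin n)) (lastE_bil G _) hΛ1
  have lag1 := fun m => lag_blocks (m := m) h1.symm hΦs hsq hΛ1
  have lag2 := fun m => lag_blocks (m := m) h1.symm hΨs (hΨ.symm ▸ hsq) hΛ2
  obtain ⟨k1, σ, k2⟩ := det_deg (φ := φ) (e := fun i => 2 * -d i + -l) (N := 6)
    (by rw [hdet]; exact mul_ne_zero (C_ne_zero.2 hc) hp.ne_zero)
    (by rw [hdet]; exact h6'.C_mul c) fun i j => by
      obtain h0 | ⟨k, a1, a2⟩ := B.hg_cases (h3.sm.deg i j)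
      · exact .inl h0
      · rcases k with _ | k
        · exact .inl (h3.sm.min i j a1)
        · exact .inr ⟨k + 1, by omega, by omega, a2⟩
  have hz (i j : Fin n) (hij : 2 * -d i + -l + (2 * -d j + -l) ≤ 0) : φ i j = 0 := by
    rcases lt_or_eq_of_le hij with h | h
    · exact (h3.sm.deg i j).eq_zero_of_neg (by omega)
    · exact h3.sm.min i j (by omega)
  have hh (i j : Fin n) (k : ℕ) (hij : 2 * -d i + -l + (2 * -d j + -l) = 2 * k) :
      (φ i j).IsHomogeneous k := L.hg_nat.1 ((h3.sm.deg i j).cast (by omega))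
  set S := Finset.univ.filter fun i => 2 * -d i + -l ≤ 0 with hS
  have hS' : ∀ i ∈ S, ∀ j ∈ S, φ.map L.ev i j = 0 := fun i hi j hj => by
    have := (Finset.mem_filter.1 hi).2
    have := (Finset.mem_filter.1 hj).2
    rw [map_apply, hz i j (by omega), map_zero]
  obtain ⟨r, m, a1, a2, a3⟩ : ∃ r m : ℕ, r ≤ 1 ∧ 4 + (Fintype.card (Fin n) + r) = 2 * m ∧
      m + S.card ≤ Fintype.card (Fin n) + r := by
    obtain ⟨m, hm | hm⟩ := (Fintype.card (Fin n)).even_or_odd'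
    · obtain ⟨U, b2, b3⟩ := lag1 (m + 2) (by omega)
      exact ⟨0, m + 2, by omega, by omega, b3 ▸ wit_bound h1.aniso hΦ0 b2 S hS'⟩
    · obtain ⟨U, b2, b3⟩ := lag2 (m + 3) (by rw [Fintype.card_sum, hm, Fintype.card_fin]; omega)
      have := wit_bound h1.aniso (hΨ.symm ▸ hΦ0) b2 (S.map ⟨Sum.inl, Sum.inl_injective⟩)
        fun i hi j hj => by
          obtain ⟨i, hi', rfl⟩ := Finset.mem_map.1 hi
          obtain ⟨j, hj', rfl⟩ := Finset.mem_map.1 hj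
          exact hS' i hi' j hj'
      rw [Finset.card_map, Fintype.card_sum, Fintype.card_fin 1, b3] at this
      exact ⟨1, m + 3, le_rfl, by omega, this⟩
  obtain ⟨b1, b2⟩ | ⟨b1, b2⟩ | ⟨b1, i, b2, b3⟩ | ⟨i, j, b1, b2⟩ :=
    patterns (e := fun i => 2 * -d i + -l) (fun _ => rfl) k1 k2 a1 a2 a3
  · obtain rfl : n = 6 := (Fintype.card_fin n).symm.trans b1
    refine ⟨fun _ => .inl ?_, fun ⟨s, hs⟩ => by have := b2 0; omega⟩
    obtain ⟨W, c1, c2⟩ := lag1 5 (by decide)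
    obtain ⟨v, hv, hv'⟩ | ⟨ψ, hψ⟩ := exists_similarity (Q := G) two_ne_zero hΦs hΦ0 one_ne_zero W
      (fun x hx y hy => by rw [one_mul, sub_eq_zero]; exact c1 x hx y hy) c2
    · exact absurd (h1.aniso v hv') hv
    choose a ha using fun i j => lin_form (hh i j 1 (by rw [b2, b2]; rfl))
    refine ⟨fun k => Matrix.of fun i j => a i j k, 1⁻¹, inv_ne_zero one_ne_zero, ψ,
      fun v x y => .trans ?_ (hψ v x y)⟩
    simp only [Vale.Agent.P287.net, qf, dotProduct, mulVec, map_apply, ha, map_sum, map_mul,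
      L.ev_C, L.ev_X, of_apply, Finset.mul_sum, Finset.sum_mul]
    rw [Finset.sum_comm]
    refine Finset.sum_congr rfl fun i _ => ?_
    rw [Finset.sum_comm]
    exact Finset.sum_congr rfl fun j _ => Finset.sum_congr rfl fun k _ => by ring
  · obtain rfl : n = 3 := (Fintype.card_fin n).symm.trans b1
    refine ⟨fun ⟨s, hs⟩ => by have := b2 0; omega, fun _ => ?_⟩
    obtain ⟨W, c1, c2⟩ := lag2 4 (by decide)
    obtain ⟨ψ, hψ⟩ := wit_iso h1.aniso (hΨ.symm ▸ hΦ0) c1 c2 (by decide)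
    have k (x y : Fin 3 ⊕ Fin 1) : ψ.symm (Pi.single x 1) ⬝ᵥ G *ᵥ ψ.symm (Pi.single y 1) =
        fromBlocks (φ.map L.ev) 0 0 (1 : Matrix (Fin 1) (Fin 1) L.K) x y := by
      rw [← polar h1.symm hΨs ψ.toLinearMap hψ, LinearEquiv.coe_coe, ψ.apply_symm_apply,
        ψ.apply_symm_apply, single_one_dotProduct, mulVec_single_one]
      rfl
    exact ⟨φ, fun i => ψ.symm (Pi.single (Sum.inl i) 1), ψ.symm (Pi.single (Sum.inr 0) 1),
      h3.sm.symm, fun i j => L.hg_nat.2 (hh i j 2 (by rw [b2, b2]; rfl)), ⟨c, hc, hdet⟩,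
      fun i j => k _ _, fun i => k _ _, k _ _⟩
  · refine ⟨fun ⟨s0, hs0⟩ => .inr ?_, fun ⟨s, hs⟩ => by omega⟩
    obtain ⟨s, rfl⟩ : ∃ s, l = -3 - 2 * s := ⟨-2 - s0, by omega⟩
    have h4 := hPAR _ _ (L.sh N s) hB (hB0 hΦ0) (hN.sh s) fun k => by
      ext w
      rw [L.sh, ← hd, L.mem_sharp, L.mem_sharp]
      exact ⟨fun h j v hv => L.AA_cast (h (j - s) v (L.mem_cast (L := N) hv (by ring))) (by ring),
        fun h j v hv => L.AA_cast (h (j + s) v hv) (by ring)⟩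
    have h5 := hHP _ U h1.lat
    have h7 : ∑ j, (1 - (d j - s)) * (2 - (d j - s)) = 2 := by
      rw [Finset.sum_eq_single i (fun j _ hj => by
        rw [show d j - s = 1 by have := b3 j hj; omega]; rfl) (by simp),
        show d i - s = 0 by omega]
      rfl
    have ht := tendsto_atTop_add_const_right atTop s tendsto_id
    have h8 : L.HP (L.sh N s) 8 (4 * s + L.c1 U - ∑ j, (d j - s))
        (2 * (s ^ 2 + 3 * s) + L.c1 U * s + L.chi U + 1) := by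
      filter_upwards [ht.eventually hdim, ht.eventually h5, B.hp_Fr fun j => d j - s]
        with k e1 e2 e3
      rw [b1, h7] at e3
      rw [finrank_fintype_fun_eq_card, Fintype.card_fin] at e2
      have e4 : (finrank ℂ (L.sh N s k) : ℤ) = finrank ℂ (U (id k + s)) +
          finrank ℂ (L.Fr (fun j => d j - s) k) := by
        rw [← L.Fr_sh]
        exact (congrArg (Nat.cast : ℕ → ℤ) e1).trans (Nat.cast_add _ _)
      generalize (finrank ℂ (U (id k + s)) : ℤ) = A at e2 e4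
      simp only [id, Nat.cast_ofNat] at e2 e3
      linear_combination 2 * e4 + e2 + e3
    rw [(chi_eq h8).1, hc1] at h4
    obtain ⟨t, ht⟩ := h4
    exact ⟨t - 1, by linear_combination 2 * ht⟩
  · have h4 := hh j i 1 b1
    have h5 := dvd_det (A := φ) (i := i) (j := j) fun k hk => hz k i (b2 k hk)
    have h7 : φ j i ≠ 0 := fun h0 => by
      rw [h0, zero_dvd_iff, hdet] at h5
      exact mul_ne_zero (C_ne_zero.2 hc) hp.ne_zero h5
    rw [hdet, ((isUnit_iff_ne_zero.2 hc).map C).dvd_mul_left] at h5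
    exfalso
    obtain h8 | h8 := hp.irreducible.dvd_iff.1 h5
    · obtain ⟨a, -, ha⟩ := exists_C_of_isUnit h8
      exact absurd (h4.inj_right (ha ▸ isHomogeneous_C _ a) h7) (by decide)
    · exact not_dvd_of_degree h6' h4 h7 (by decide) h8.dvd

theorem qf (hQD : L.stQD) (hSYM : L.stSYM) (hGL : L.stGLUE) (_ : L.stWITT) (hPAR : L.stPAR)
    (hHP : L.stHPX) : L.stQF := qf' hQD hSYM hGL hPAR hHP

end Vale.Agent.P287Z.V
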