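import Vale.Agent.P287Z.V.En
import Vale.Agent.P287Z.V.Bs
import Vale.Agent.P287Z.L.Basic

/-!
# Self-dual lattices have Lagrangian subspaces; the rational ends
-/

namespace Vale.Agent.P287Z.V

open Module Matrix MvPolynomial Filter Vale.Agent.P287 Vale.Agent.P287.Theta Vale.Agent.P287.H925

theorem AA_OK {k : ℤ} {y : L.K} (h : y ∈ L.AA k) : y ∈ OK := by
  obtain ⟨b, -, rfl⟩ := h
  exact ⟨crF (cr b), crMap_cr b⟩

theorem OK_AA {y : L.K} (h : y ∈ OK) : ∃ b : FF, b ≠ 0 ∧ ∃ d : ℤ,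
    algebraMap _ L.K (Polynomial.C b) ∈ L.AA d ∧ algebraMap _ L.K (Polynomial.C b) * y ∈ L.AA d := by
  obtain ⟨p, rfl⟩ := h
  obtain ⟨b, q, hb, h⟩ := exists_crF p
  obtain ⟨d1, h1⟩ := L.exists_mem_AA (crTo (Polynomial.C b))
  obtain ⟨d2, h2⟩ := L.exists_mem_AA (crTo q)
  refine ⟨algebraMap _ FF b, (map_ne_zero_iff _ (IsFractionRing.injective _ _)).2 hb, d1 + d2,
    ?_, ?_⟩
  · have := h1 (d1 + d2) (by omega)
    rwa [← crMap_eq, ← ffMap_crF, crF, Polynomial.coe_mapRingHom, Polynomial.map_C] at this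
  · have := h2 (d1 + d2) (by omega)
    rwa [← crMap_eq, ← ffMap_crF, ← h, ← algebraMap_FF, map_mul] at this

variable {ι : Type} [Fintype ι] [DecidableEq ι]

theorem nd_of_det {G : Matrix ι ι L.K} (hG0 : G.det ≠ 0) (x : ι → L.K)
    (hx : ∀ u ∈ (⊤ : Submodule L.K (ι → L.K)), Matrix.toBilin' G x u = 0) : x = 0 :=
  eq_zero_of_vecMul_eq_zero hG0 (funext fun i => by
    have := hx (Pi.single i 1) trivial
    rwa [Matrix.toBilin'_apply', dotProduct_mulVec, dotProduct_single_one] at this)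

theorem selfDual {G : Matrix ι ι L.K} {N : ℤ → Submodule ℂ (ι → L.K)} {l : ℤ} (hG : G.IsSymm)
    (hG0 : G.det ≠ 0) (hN : L.Lat N) (hs : ∀ k, L.sharp G N l k = N k) :
    ∃ Λ : Submodule (Polynomial FF) (ι → L.K), SelfDual (Matrix.toBilin' G) ⊤ Λ := by
  obtain ⟨n, u, e, hg⟩ := hN.fg
  have hsh {k : ℤ} {w : ι → L.K} : w ∈ N k ↔ ∀ a, u a ⬝ᵥ G *ᵥ w ∈ L.AA (e a + (k + l)) := by
    rw [← hs, B.mem_sharp_gen hg]
  have hm {w : ι → L.K} : w ∈ Submodule.span (Polynomial FF) (Set.range u) ↔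
      ∃ c : Fin n → L.K, (∀ a, c a ∈ OK) ∧ ∑ a, c a • u a = w := by
    rw [Submodule.mem_span_range_iff_exists_fun]
    refine ⟨fun ⟨c, hc⟩ => ⟨fun a => algebraMap _ _ (c a), fun a => ⟨_, rfl⟩, by
      simpa only [algebraMap_smul] using hc⟩, fun ⟨c, h1, h2⟩ => ?_⟩
    choose b hb using h1
    exact ⟨b, by simpa only [← hb, algebraMap_smul] using h2⟩
  have key {v w : ι → L.K} (hv : v ∈ Submodule.span (Polynomial FF) (Set.range u))
      (hw : ∀ a, u a ⬝ᵥ G *ᵥ w ∈ OK) : v ⬝ᵥ G *ᵥ w ∈ OK := by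
    obtain ⟨c, hc, rfl⟩ := hm.1 hv
    rw [sum_dotProduct]
    exact OK.sum_mem fun a _ => by
      rw [smul_dotProduct, smul_eq_mul]
      exact OK.mul_mem (hc a) (hw a)
  refine ⟨Submodule.span _ (Set.range u), fun _ _ => trivial,
    Submodule.fg_span (Set.finite_range u), fun v hv w hw => ?_, fun v _ hv => ?_,
    fun w _ => ?_, fun x _ hx => nd_of_det hG0 x hx⟩
  · rw [Matrix.toBilin'_apply']
    refine key hv fun a => ?_
    rw [symm_dot hG]
    exact key hw fun b => AA_OK (hsh.1 (B.gen_mem hg a) b)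
  · choose b b0 d b1 b2 using fun a => OK_AA (hv (u a) (Submodule.subset_span ⟨a, rfl⟩))
    have h1 : (∏ a, algebraMap _ L.K (Polynomial.C (b a))) • v ∈
        N (∑ a, d a + ∑ a, |e a| - l) := hsh.2 fun a => by
      rw [mulVec_smul, dotProduct_smul, smul_eq_mul,
        ← Finset.prod_erase_mul _ _ (Finset.mem_univ a), mul_assoc, symm_dot hG,
        ← Matrix.toBilin'_apply']
      refine B.AA_mono (B.AA_mul (L.AA_prod _ fun i _ => b1 i) (b2 a)
        (Finset.sum_erase_add _ _ (Finset.mem_univ a))) ?_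
      have := Finset.single_le_sum (fun i _ => abs_nonneg (e i)) (Finset.mem_univ a)
      have := neg_abs_le (e a)
      omega
    rw [hg] at h1
    obtain ⟨c, hc, h2⟩ := B.mem_Sp.1 h1
    have h3 := Submodule.smul_mem _ (Polynomial.C (∏ a, b a)⁻¹)
      (hm.2 ⟨c, fun a => AA_OK (hc a), h2⟩)
    rwa [← map_prod, ← map_prod, algebraMap_smul, smul_smul, ← map_mul,
      inv_mul_cancel₀ (Finset.prod_ne_zero_iff.2 fun a _ => b0 a), map_one, one_smul] at h3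
  · obtain ⟨c, hc⟩ := B.gen_span hg hN.full w
    obtain ⟨D, hD⟩ := IsLocalization.exist_integer_multiples_of_finite
      (nonZeroDivisors (Polynomial FF)) c
    refine ⟨D, nonZeroDivisors.ne_zero D.2, hm.2 ⟨fun a => D.1 • c a, hD, ?_⟩⟩
    simp only [smul_assoc, ← Finset.smul_sum, hc]

theorem lag_of {G : Matrix ι ι L.K} {Λ : Submodule (Polynomial FF) (ι → L.K)} (hG : G.IsSymm)
    (h : SelfDual (Matrix.toBilin' G) ⊤ Λ) (hsq : IsSquare G.det) {m : ℕ}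
    (hm : Fintype.card ι = 2 * m) :
    ∃ W : Submodule L.K (ι → L.K), finrank L.K W = m ∧ ∀ x ∈ W, ∀ y ∈ W, x ⬝ᵥ G *ᵥ y = 0 := by
  obtain ⟨U, -, h1, h2⟩ := h.exists_lagrangian ℂ (fun x y => by
    rw [Matrix.toBilin'_apply', Matrix.toBilin'_apply', symm_dot hG]) m (by simp [hm])
    (sq_of_isSquare_det _ hsq)
  exact ⟨U, h2, fun x hx y hy => (Matrix.toBilin'_apply' _ _ _).symm.trans (h1 x hx y hy)⟩

theorem witt : L.stWITT := fun _ _ _ _ _ _ _ hG hG0 hsq hm hN hs =>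
  let ⟨_, h⟩ := selfDual hG hG0 hN hs
  lag_of hG h hsq hm

theorem sd_ext {κ : Type} [Fintype κ] [DecidableEq κ] {G : Matrix ι ι L.K} {G' : Matrix κ κ L.K}
    (hG' : G'.det ≠ 0) (P : (κ → L.K) ≃ₗ[L.K] (ι → L.K) × L.K)
    (hP : ∀ x y, Matrix.toBilin' G' x y = Matrix.toBilin' G (P x).1 (P y).1 - (P x).2 * (P y).2)
    {Λ : Submodule (Polynomial FF) (ι → L.K)} (h : SelfDual (Matrix.toBilin' G) ⊤ Λ) :
    ∃ Λ' : Submodule (Polynomial FF) (κ → L.K), SelfDual (Matrix.toBilin' G') ⊤ Λ' := by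
  let N := (Λ.prod (1 : Submodule (Polynomial FF) L.K)).map
    (P.symm.restrictScalars (Polynomial FF)).toLinearMap
  have hN (x : κ → L.K) : x ∈ N ↔ (P x).1 ∈ Λ ∧ (P x).2 ∈ OK := by
    rw [Submodule.mem_map_equiv, Submodule.mem_prod, Submodule.mem_one]
    rfl
  refine ⟨N, fun _ _ => trivial, (h.fg.prod (Submodule.one_eq_span (R := Polynomial FF) (A := L.K) ▸
    Submodule.fg_span_singleton _)).map _, fun x hx y hy => ?_, fun x _ hx => (hN x).2 ⟨?_, ?_⟩,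
    fun x _ => ?_, fun x _ hx => nd_of_det hG' x hx⟩
  · rw [hP]
    exact OK.sub_mem (h.int _ ((hN x).1 hx).1 _ ((hN y).1 hy).1)
      (OK.mul_mem ((hN x).1 hx).2 ((hN y).1 hy).2)
  · refine h.dual _ trivial fun y hy => ?_
    simpa [hP] using hx (P.symm (y, 0)) ((hN _).2 (by simpa using hy))
  · simpa [hP] using hx (P.symm (0, 1)) ((hN _).2 (by simp))
  · obtain ⟨c, hc, h1⟩ := h.span (P x).1 trivial
    obtain ⟨D, hD⟩ := IsLocalization.exists_integer_multiple (nonZeroDivisors (Polynomial FF))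
      (P x).2
    have h2 (a : Polynomial FF) : P (a • x) = a • P x := P.toLinearMap.map_smul_of_tower a x
    refine ⟨D * c, mul_ne_zero (nonZeroDivisors.ne_zero D.2) hc, (hN _).2 ⟨?_, ?_⟩⟩
    · rw [h2, Prod.smul_fst, mul_smul]
      exact Λ.smul_mem _ h1
    · rw [h2, Prod.smul_snd, mul_comm, mul_smul, Algebra.smul_def c]
      exact OK.mul_mem ⟨c, rfl⟩ hD

theorem net : L.stNET := by
  rintro C ν hν ⟨Q, c, hc, ψ, hψ⟩
  refine NetResult.net_result _ (cubicOf_homogeneous C.M C.deg) C.smooth (qM C.M) (fun w => by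
    rw [qM_apply, aeval_wvec_cubicOf C.M C.deg]) Q ?_
  let τ : (Fin 4 → RatK) ≃ₗ[RatK] (Fin 4 → RatK) := LinearEquiv.funCongrLeft RatK RatK perm4
  refine ⟨c * ν⁻¹, mul_ne_zero hc (inv_ne_zero hν), (τ.prodCongr
    ((LinearEquiv.smulOfNeZero RatK RatK ν⁻¹ (inv_ne_zero hν)).prodCongr
      (LinearEquiv.refl RatK RatK))).trans ψ, fun v a b => ?_⟩
  refine (hψ (v ∘ perm4) (ν⁻¹ * a) b).trans ?_
  rw [qM_apply, smul_mulVec, dotProduct_smul, smul_eq_mul, mul_assoc ν⁻¹, ← mul_add, mul_assoc]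
  rfl

theorem psi_eq (φ : Matrix (Fin 3) (Fin 3) P3) : L.psi φ = (Tm φ).map ev :=
  Matrix.ext fun a b => by
    simp only [L.psi, Tm, of_apply, map_apply, map_sum, map_mul, aeval_C, aeval_X, L.hes, hc,
      constantCoeff_eq, div_eq_inv_mul]
    exact Finset.sum_congr rfl fun i _ => Finset.sum_congr rfl fun j _ => mul_comm _ _

theorem ver_iso {K : Type*} [Field K] {G : Matrix (Fin 4) (Fin 4) K} (hs : G.IsSymm)
    {A : Matrix (Fin 3) (Fin 3) K} (h0 : A.det ≠ 0) {u : Fin 3 → Fin 4 → K} {w : Fin 4 → K}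
    (uu : ∀ i j, u i ⬝ᵥ G *ᵥ u j = A i j) (uw : ∀ i, u i ⬝ᵥ G *ᵥ w = 0) (ww : w ⬝ᵥ G *ᵥ w = 1) :
    ∃ ψ : (Fin 4 → K) ≃ₗ[K] (Fin 4 → K), ∀ v,
      ![ψ v 0, ψ v 1, ψ v 2] ⬝ᵥ A *ᵥ ![ψ v 0, ψ v 1, ψ v 2] + ψ v 3 ^ 2 = v ⬝ᵥ G *ᵥ v := by
  let χ := Fintype.linearCombination K ![u 0, u 1, u 2, w]
  have hχ (x : Fin 4 → K) : χ x = x 0 • u 0 + x 1 • u 1 + x 2 • u 2 + x 3 • w := by
    rw [Fintype.linearCombination_apply, Fin.sum_univ_four]
    rfl
  have hwu (i : Fin 3) : w ⬝ᵥ G *ᵥ u i = 0 := (symm_dot hs _ _).trans (uw i)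
  have hχ2 (x y : Fin 4 → K) : χ x ⬝ᵥ G *ᵥ χ y =
      ![x 0, x 1, x 2] ⬝ᵥ A *ᵥ ![y 0, y 1, y 2] + x 3 * y 3 := by
    simp only [hχ, mulVec_add, mulVec_smul, add_dotProduct, dotProduct_add, smul_dotProduct,
      dotProduct_smul, uu, uw, ww, hwu, smul_eq_mul]
    simp [dotProduct, mulVec, Fin.sum_univ_succ]
    ring
  have hi : Function.Injective χ := (injective_iff_map_eq_zero χ).2 fun x hx => by
    have h4 := hχ2 (Pi.single 3 1) x
    have h5 : ![x 0, x 1, x 2] = 0 := eq_zero_of_mulVec_eq_zero h0 (funext fun i => by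
      have h7 := hχ2 (Pi.single i.castSucc 1) x
      rw [hx, mulVec_zero, dotProduct_zero] at h7
      fin_cases i <;> simpa [dotProduct, Fin.sum_univ_three] using h7.symm)
    rw [hx, mulVec_zero, dotProduct_zero, h5, mulVec_zero, dotProduct_zero] at h4
    funext i
    fin_cases i
    exacts [congrFun h5 0, congrFun h5 1, congrFun h5 2, by simpa using h4.symm]
  refine ⟨(LinearEquiv.ofInjectiveEndo χ hi).symm, fun v => ?_⟩
  obtain ⟨v, rfl⟩ := (LinearEquiv.ofInjectiveEndo χ hi).surjective v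
  rw [LinearEquiv.symm_apply_apply, pow_two, ← hχ2]
  rfl

theorem vr : L.stVR := by
  intro C ν φ u w hν h
  obtain ⟨c, hc, hd⟩ := h.det
  have h2 (i j : Fin 3) : (φ i j).IsHomogeneous 2 := B.hg_iff.1 (h.deg i j)
  have h3 : SmoothP φ.det := fun z hz => C.disc z fun i => by
    have := hz i
    rw [hd, pderiv_C_mul, map_mul, eval_C] at this
    exact (mul_eq_zero.1 this).resolve_left hc
  have h6 := det_hom6 C.deg
  have h0 : (φ.map ev).det ≠ 0 := by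
    rw [ev_det, hd]
    exact ev_ne (h6.C_mul c) (mul_ne_zero (C_ne_zero.2 hc)
      (prime_of_smoothP h6 (by decide) C.disc).ne_zero)
  obtain ⟨ψ, hψ⟩ := ver_iso ((C.symm.map L.ev).smul ν⁻¹) h0 h.uu h.uw h.ww
  refine (verra C.M C.deg C.smooth h.symm h2 h3 (inv_ne_zero hν) ψ fun v => ?_).imp_right
    fun h4 => ⟨fun w x h5 => (h4 x w (by rw [← psi_eq, add_comm, h5])).symm, ?_⟩
  · rw [hψ, smul_mulVec, dotProduct_smul, smul_eq_mul]
    rfl
  · rw [psi_eq]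
    exact Tm_not_sq h.symm h2 h3

end Vale.Agent.P287Z.V
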