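import Vale.Agent.P287Z.V.Gl

/-!
# The end of the argument: degree patterns of a minimal symmetric matrix glued to the fibration
-/

namespace Vale.Agent.P287Z.V

open Module Matrix MvPolynomial Vale.Agent.P287 Vale.Agent.P287.Theta Vale.Agent.P287.H925

section wit

variable {K : Type*} [Field K] {ι : Type} [Fintype ι] [DecidableEq ι]
  {Q : Matrix (Fin 4) (Fin 4) K} {G : Matrix ι ι K} {U : Submodule K (Fin 4 ⊕ ι → K)}

omit [DecidableEq ι] in
theorem inj_right (han : ∀ v, v ⬝ᵥ Q *ᵥ v = 0 → v = 0)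
    (hU : ∀ x ∈ U, ∀ y ∈ U, (x ∘ Sum.inl) ⬝ᵥ Q *ᵥ (y ∘ Sum.inl) =
      (x ∘ Sum.inr) ⬝ᵥ G *ᵥ (y ∘ Sum.inr)) :
    Function.Injective ((LinearMap.funLeft K K Sum.inr) ∘ₗ U.subtype) := by
  rw [injective_iff_map_eq_zero]
  rintro ⟨u, hu⟩ hu2
  have h2 : u ∘ Sum.inr = 0 := hu2
  have h4 := han _ ((hU u hu u hu).trans (by rw [h2, zero_dotProduct]))
  refine Subtype.ext (funext fun j => ?_)
  rcases j with j | j
  exacts [congrFun h4 j, congrFun h2 j]

theorem wit_bound (han : ∀ v, v ⬝ᵥ Q *ᵥ v = 0 → v = 0) (hG0 : G.det ≠ 0)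
    (hU : ∀ x ∈ U, ∀ y ∈ U, (x ∘ Sum.inl) ⬝ᵥ Q *ᵥ (y ∘ Sum.inl) =
      (x ∘ Sum.inr) ⬝ᵥ G *ᵥ (y ∘ Sum.inr)) (S : Finset ι) (hS : ∀ i ∈ S, ∀ j ∈ S, G i j = 0) :
    finrank K U + S.card ≤ Fintype.card ι := by
  set p := (LinearMap.funLeft K K Sum.inr) ∘ₗ U.subtype with hp
  set T := Submodule.span K (Set.range fun i : S => (Pi.single (i : ι) 1 : ι → K)) with hT
  have hT1 : finrank K T = S.card :=
    (finrank_span_eq_card ((Pi.linearIndependent_single_one ι K).comp _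
      Subtype.val_injective)).trans (Fintype.card_coe S)
  have hT2 : ∀ x ∈ T, ∀ i ∉ S, x i = 0 := fun x hx i hi => by
    refine (Submodule.span_le (p := LinearMap.ker (LinearMap.proj i : (ι → K) →ₗ[K] K))).2 ?_ hx
    rintro _ ⟨j, rfl⟩
    exact Pi.single_eq_of_ne (fun h : i = j => hi (h ▸ j.2)) _
  have hT3 : ∀ x ∈ T, ∀ y ∈ T, x ⬝ᵥ G *ᵥ y = 0 := fun x hx y hy =>
    Finset.sum_eq_zero fun i _ => by
      by_cases hi : i ∈ S
      · refine mul_eq_zero_of_right _ (Finset.sum_eq_zero fun j _ => ?_)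
        by_cases hj : j ∈ S
        · exact mul_eq_zero_of_left (hS i hi j hj) _
        · exact mul_eq_zero_of_right _ (hT2 y hy j hj)
      · rw [hT2 x hx i hi, zero_mul]
  have hle : LinearMap.range p ⊓ T ≤ (Matrix.toBilin' G).orthogonal (LinearMap.range p ⊔ T) := by
    rintro _ ⟨⟨⟨u, hu⟩, rfl⟩, h2⟩ z hz
    obtain ⟨_, ⟨⟨a, ha⟩, rfl⟩, b, hb, rfl⟩ := Submodule.mem_sup.1 hz
    change Matrix.toBilin' G _ _ = 0
    have h3 := han _ ((hU u hu u hu).trans (hT3 _ h2 _ h2))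
    rw [Matrix.toBilin'_apply', add_dotProduct, hT3 b hb _ h2, add_zero]
    exact (hU a ha u hu).symm.trans (by rw [h3, mulVec_zero, dotProduct_zero])
  have h5 := Submodule.finrank_mono hle
  have h6 := Submodule.finrank_sup_add_finrank_inf_eq (LinearMap.range p) T
  have h7 := Submodule.finrank_le (LinearMap.range p ⊔ T)
  rw [LinearMap.BilinForm.finrank_orthogonal
    (LinearMap.BilinForm.nondegenerate_toBilin'_of_det_ne_zero' G hG0)] at h5
  rw [LinearMap.finrank_range_of_inj (inj_right han hU), hT1] at h6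
  rw [finrank_fintype_fun_eq_card] at h5 h7
  omega

theorem wit_iso (han : ∀ v, v ⬝ᵥ Q *ᵥ v = 0 → v = 0) (hG0 : G.det ≠ 0)
    (hU : ∀ x ∈ U, ∀ y ∈ U, (x ∘ Sum.inl) ⬝ᵥ Q *ᵥ (y ∘ Sum.inl) =
      (x ∘ Sum.inr) ⬝ᵥ G *ᵥ (y ∘ Sum.inr)) (h4 : finrank K U = 4) (hι : Fintype.card ι = 4) :
    ∃ ψ : (Fin 4 → K) ≃ₗ[K] (ι → K), ∀ v, ψ v ⬝ᵥ G *ᵥ ψ v = v ⬝ᵥ Q *ᵥ v := by
  have h2 := inj_right han hU
  have h2' := (LinearMap.injective_iff_surjective_of_finrank_eq_finrank (by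
    rw [h4, finrank_fintype_fun_eq_card, hι])).1 h2
  have h1 : Function.Injective ((LinearMap.funLeft K K Sum.inl) ∘ₗ U.subtype) := by
    rw [injective_iff_map_eq_zero]
    rintro ⟨u, hu⟩ hu1
    have h3 : u ∘ Sum.inl = 0 := hu1
    have h5 : u ∘ Sum.inr = 0 := eq_zero_of_mulVec_eq_zero hG0 (funext fun i => by
      obtain ⟨⟨a, ha⟩, h6⟩ := h2' (Pi.single i 1)
      have h7 := hU a ha u hu
      rw [h3, mulVec_zero, dotProduct_zero, show a ∘ Sum.inr = _ from h6,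
        single_one_dotProduct] at h7
      exact h7.symm)
    refine Subtype.ext (funext fun j => ?_)
    rcases j with j | j
    exacts [congrFun h3 j, congrFun h5 j]
  have h1' := (LinearMap.injective_iff_surjective_of_finrank_eq_finrank (by
    rw [h4, finrank_fintype_fun_eq_card, Fintype.card_fin])).1 h1
  refine ⟨(LinearEquiv.ofBijective _ ⟨h1, h1'⟩).symm.trans (LinearEquiv.ofBijective _ ⟨h2, h2'⟩),
    fun v => ?_⟩
  obtain ⟨u, rfl⟩ := (LinearEquiv.ofBijective _ ⟨h1, h1'⟩).surjective v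
  rw [LinearEquiv.trans_apply, LinearEquiv.symm_apply_apply]
  exact (hU u u.2 u u.2).symm

end wit

variable {ι : Type} [Fintype ι] [DecidableEq ι]

/-- evaluation at the generic point -/
noncomputable abbrev ev : P3 →ₐ[ℂ] RatK := aeval tvec

/-- The symmetric matrix `φ` has the same determinant as `M`, and over `ℂ(x)[y]` the same
discriminant form as a lattice for `l • M`. -/
structure Glued (M : Matrix (Fin 4) (Fin 4) P3) (l : RatK) (φ : Matrix ι ι P3) : Prop where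
  symm : φ.IsSymm
  det : ∃ c : ℂ, c ≠ 0 ∧ φ.det = C c * M.det
  glue : ∃ (Λ : Submodule (Polynomial FF) (Fin 4 → RatK)) (v : Fin 4 → RatK) (w : ι → RatK),
    Lat (l • M.map ev) Λ v ∧ (∀ i, (φ.map ev *ᵥ w) i ∈ OK) ∧
      v ⬝ᵥ (l • M.map ev) *ᵥ v - w ⬝ᵥ φ.map ev *ᵥ w ∈ OK

variable {M : Matrix (Fin 4) (Fin 4) P3} {l : RatK} {φ : Matrix ι ι P3}

theorem Glued.sub (h : Glued M l φ) {κ : Type} [Fintype κ] [DecidableEq κ] (τ : κ ≃ ι) :
    Glued M l (φ.submatrix τ τ) := by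
  obtain ⟨Λ, v, w, h1, h2, h3⟩ := h.glue
  have k : (φ.submatrix τ τ).map ev *ᵥ (w ∘ τ) = (φ.map ev *ᵥ w) ∘ τ := by
    rw [← submatrix_map, submatrix_mulVec_equiv, Function.comp_assoc, Equiv.self_comp_symm,
      Function.comp_id]
  refine ⟨h.symm.submatrix τ, by simpa using h.det, Λ, v, w ∘ τ, h1, fun i => ?_, ?_⟩
  · rw [k]
    exact h2 _
  · rwa [k, comp_equiv_dotProduct_comp_equiv]

theorem Glued.one (h : Glued M l φ) : Glued M l (fromBlocks φ 0 0 (1 : Matrix (Fin 1) (Fin 1) P3)) := by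
  obtain ⟨Λ, v, w, h1, h2, h3⟩ := h.glue
  have k : (fromBlocks φ 0 0 (1 : Matrix (Fin 1) (Fin 1) P3)).map ev *ᵥ (Sum.elim w 0) =
      Sum.elim (φ.map ev *ᵥ w) 0 := by
    simp [fromBlocks_map, fromBlocks_mulVec]
  refine ⟨isSymm_fromBlocks_iff.2 ⟨h.symm, by simp, by simp, isSymm_one⟩, by simpa using h.det,
    Λ, v, Sum.elim w 0, h1, fun i => ?_, ?_⟩
  · rw [k]
    rcases i with i | i
    exacts [h2 i, OK.zero_mem]
  · rwa [k, sumElim_dotProduct_sumElim, zero_dotProduct, add_zero]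

theorem ev_det {κ : Type} [Fintype κ] [DecidableEq κ] (A : Matrix κ κ P3) :
    (A.map ev).det = ev A.det := (AlgHom.map_det ev A).symm

theorem ev_ne {p : P3} {d : ℕ} (hp : p.IsHomogeneous d) (h : p ≠ 0) : ev p ≠ 0 := fun h0 =>
  h (cr_inj hp (crMap_injective ((crMap_cr p).trans (h0.trans (map_zero _).symm))))

theorem Glued.lag (h : Glued M l φ) (hM : M.IsSymm)
    (hdeg : ∀ i j, (M i j).IsHomogeneous (1 + wt i + wt j)) (hsm : SmoothP M.det) (hl : l ≠ 0)
    {m : ℕ} (hm : 4 + Fintype.card ι = 2 * m) : (φ.map ev).det ≠ 0 ∧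
    ∃ U : Submodule RatK (Fin 4 ⊕ ι → RatK), (∀ x ∈ U, ∀ y ∈ U,
      (x ∘ Sum.inl) ⬝ᵥ (l • M.map ev) *ᵥ (y ∘ Sum.inl) =
      (x ∘ Sum.inr) ⬝ᵥ φ.map ev *ᵥ (y ∘ Sum.inr)) ∧ finrank RatK U = m := by
  obtain ⟨Λ, v, w, h1, h2, h3⟩ := h.glue
  obtain ⟨c, hc, hd⟩ := h.det
  have h6 := det_hom6 hdeg
  have hp := prime_of_smoothP h6 (by decide) hsm
  have h0 := ev_ne h6 hp.ne_zero
  let π : P3 →+* Polynomial FF := crF.comp cr.toRingHom
  have hπ (p : P3) : algebraMap _ RatK (π p) = ev p := crMap_cr p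
  have k : (φ.map π).map (algebraMap _ RatK) = φ.map ev := Matrix.ext fun i j => hπ _
  have hC : ev (C c) = algebraMap ℂ RatK c := aeval_C _ _
  have hc' : algebraMap ℂ RatK c ≠ 0 := (map_ne_zero _).2 hc
  have hdet : (φ.map π).det = π (C c) * π M.det := by
    rw [← map_mul, ← hd]
    exact (RingHom.map_det π φ).symm
  refine ⟨by rw [ev_det, hd, map_mul, hC]; exact mul_ne_zero hc' h0, ?_⟩
  rw [← k] at h2 h3 ⊢
  refine lagr ((hM.map _).smul _) (by
    rw [det_smul, ev_det]; exact mul_ne_zero (pow_ne_zero _ hl) h0) h1 (h.symm.map _)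
    (prime_crF (prime_cr h6 hp (by decide)) (natDegree_cr_ne_zero h6 hp (by decide)))
    (((isUnit_iff_ne_zero.2 hc).map C).map π) hdet h2 h3 ?_ hm
  obtain ⟨s, rfl⟩ := IsAlgClosed.exists_eq_mul_self c
  refine ⟨l ^ 2 * ev M.det * algebraMap ℂ RatK s, ?_⟩
  rw [det_smul, ev_det, hdet, map_mul, hπ, hπ, hC, map_mul, Fintype.card_fin]
  ring

theorem Glued.net (hM : M.IsSymm) (hdeg : ∀ i j, (M i j).IsHomogeneous (1 + wt i + wt j))
    (hs : SmoothForm (cubicOf M)) (hsm : SmoothP M.det) (hl : l ≠ 0)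
    (han : ∀ v, v ⬝ᵥ (l • M.map ev) *ᵥ v = 0 → v = 0)
    {φ : Matrix (Fin 6) (Fin 6) P3} (h : Glued M l φ) (h1 : ∀ i j, (φ i j).IsHomogeneous 1) :
    NetResult.RationalHypersurface (cubicOf M) := by
  have hchar : CharZero RatK := charZero_of_injective_algebraMap (algebraMap ℂ RatK).injective
  obtain ⟨h0, U, hU, hd⟩ := h.lag hM hdeg hsm hl (m := 5) (by decide)
  obtain ⟨v, hv, hv'⟩ | ⟨ψ, hψ⟩ := exists_similarity (Q := l • M.map ev) two_ne_zero
    (h.symm.map ev) h0 one_ne_zero U (fun x hx y hy => by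
      rw [one_mul, sub_eq_zero]; exact hU x hx y hy) hd
  · exact absurd (han v hv') hv
  choose c hc using fun i j => lin_form (h1 i j)
  refine NetResult.net_result _ (cubicOf_homogeneous M hdeg) hs (qM M) (fun w => by
    rw [qM_apply, aeval_wvec_cubicOf M hdeg]) (fun k => Matrix.of fun i j => c i j k) ?_
  let τ : (Fin 4 → RatK) ≃ₗ[RatK] (Fin 4 → RatK) := LinearEquiv.funCongrLeft RatK RatK perm4
  refine ⟨l, hl, (τ.prodCongr ((LinearEquiv.smulOfNeZero RatK RatK l hl).prodCongr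
    (LinearEquiv.refl RatK RatK))).trans ψ, fun v a b => ?_⟩
  have h2 (w : Fin 6 → RatK) : Vale.Agent.P287.net (fun k => Matrix.of fun i j => c i j k) tvec w =
      w ⬝ᵥ φ.map ev *ᵥ w := by
    simp only [Vale.Agent.P287.net, qf, dotProduct, mulVec, map_apply, hc, map_sum, map_mul,
      aeval_C, aeval_X, of_apply, Finset.mul_sum, Finset.sum_mul]
    rw [Finset.sum_comm]
    refine Finset.sum_congr rfl fun i _ => ?_
    rw [Finset.sum_comm]
    exact Finset.sum_congr rfl fun j _ => Finset.sum_congr rfl fun k _ => by ring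
  rw [h2]
  refine (hψ (v ∘ perm4) (l * a) b).trans ?_
  rw [qM_apply, smul_mulVec, dotProduct_smul, smul_eq_mul, inv_one]
  ring

theorem det_deg {e : ι → ℤ} (hφ : φ.det ≠ 0) {N : ℕ} (hN : φ.det.IsHomogeneous N)
    (h : ∀ i j, φ i j = 0 ∨ ∃ n : ℕ, 1 ≤ n ∧ 2 * (n : ℤ) = e i + e j ∧ (φ i j).IsHomogeneous n) :
    ∑ i, e i = N ∧ ∃ σ : Equiv.Perm ι, ∀ i, 2 ≤ e (σ i) + e i := by
  have key (σ : Equiv.Perm ι) (hσ : ∏ i, φ (σ i) i ≠ 0) : (∀ i, 2 ≤ e (σ i) + e i) ∧
      ∃ n : ℕ, ∑ i, e i = n ∧ (∏ i, φ (σ i) i).IsHomogeneous n := by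
    choose n h1 h2 h3 using fun i => (h (σ i) i).resolve_left
      (Finset.prod_ne_zero_iff.1 hσ i (Finset.mem_univ i))
    refine ⟨fun i => by have := h1 i; have := h2 i; omega, ∑ i, n i, ?_,
      IsHomogeneous.prod _ _ _ fun i _ => h3 i⟩
    have h4 := Finset.sum_congr (s₁ := Finset.univ) rfl fun i _ => h2 i
    rw [Finset.sum_add_distrib, Equiv.sum_comp σ e, ← Finset.mul_sum] at h4
    push_cast
    omega
  obtain ⟨σ, -, hσ⟩ := Finset.exists_ne_zero_of_sum_ne_zero (det_apply φ ▸ hφ)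
  obtain ⟨h1, n, h2, -⟩ := key σ (right_ne_zero_of_smul hσ)
  refine ⟨?_, σ, h1⟩
  have h3 : φ.det.IsHomogeneous n := by
    rw [det_apply']
    refine IsHomogeneous.sum _ _ _ fun τ _ => ?_
    by_cases hτ : ∏ i, φ (τ i) i = 0
    · rw [hτ, mul_zero]
      exact isHomogeneous_zero _ _ _
    · obtain ⟨-, k, h4, h5⟩ := key τ hτ
      obtain rfl : k = n := by omega
      rw [← map_intCast (C : ℂ →+* P3)]
      exact h5.C_mul _
  rw [h2, hN.inj_right h3 hφ]

theorem dvd_det {R : Type*} [CommRing R] {A : Matrix ι ι R} {i j : ι}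
    (h : ∀ k ≠ j, A k i = 0) : A j i ∣ A.det := by
  rw [det_apply']
  refine Finset.dvd_sum fun σ _ => Dvd.dvd.mul_left ?_ _
  refine Dvd.dvd.trans ?_ (Finset.dvd_prod_of_mem _ (Finset.mem_univ i))
  by_cases h1 : σ i = j
  · rw [h1]
  · rw [h _ h1]
    exact dvd_zero _

omit [Fintype ι] [DecidableEq ι] in
theorem sum_ge {e : ι → ℤ} {s : Finset ι} {a : ℤ} (h : ∀ i ∈ s, a ≤ e i) {i j : ι} (hi : i ∈ s)
    (hj : j ∈ s) : e i - a + a * s.card ≤ ∑ k ∈ s, e k ∧
      (i ≠ j → e i - a + (e j - a) + a * s.card ≤ ∑ k ∈ s, e k) := by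
  have h0 : ∀ k ∈ s, 0 ≤ e k - a := fun k hk => sub_nonneg.2 (h k hk)
  have h1 : ∑ k ∈ s, (e k - a) = ∑ k ∈ s, e k - a * s.card := by
    rw [Finset.sum_sub_distrib, Finset.sum_const, nsmul_eq_mul, mul_comm]
  have h2 := Finset.single_le_sum h0 hi
  refine ⟨by omega, fun hij => ?_⟩
  have h3 := Finset.add_le_sum h0 hi hj hij
  omega

/-- the possible degree vectors -/
theorem patterns {g e : ι → ℤ} {d : ℤ} (he : ∀ i, e i = 2 * g i + d) (h6 : ∑ i, e i = 6)
    {σ : Equiv.Perm ι} (hσ : ∀ i, 2 ≤ e (σ i) + e i) {r m : ℕ} (hr : r ≤ 1)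
    (hm : 4 + (Fintype.card ι + r) = 2 * m)
    (hS : m + (Finset.univ.filter fun i => e i ≤ 0).card ≤ Fintype.card ι + r) :
    (Fintype.card ι = 6 ∧ ∀ i, e i = 1) ∨ (Fintype.card ι = 3 ∧ ∀ i, e i = 2) ∨
      (Fintype.card ι = 4 ∧ ∃ i, e i = 3 ∧ ∀ j ≠ i, e j = 1) ∨
      ∃ i j, e j + e i = 2 ∧ ∀ k ≠ j, e k + e i ≤ 0 := by
  have hn : Fintype.card ι ≤ 6 := by
    have h1 := Finset.card_nsmul_le_sum Finset.univ (fun i => e (σ i) + e i) 2 fun i _ => hσ i
    rw [Finset.sum_add_distrib, Equiv.sum_comp σ e, h6, Finset.card_univ, nsmul_eq_mul] at h1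
    omega
  have hd : 2 * ∑ i, g i + Fintype.card ι * d = 6 := by
    rw [← h6, Finset.sum_congr rfl fun i _ => he i, Finset.sum_add_distrib, ← Finset.mul_sum,
      Finset.sum_const, Finset.card_univ, nsmul_eq_mul]
  have u := fun i : ι => Finset.mem_univ i
  by_cases h0 : ∀ i, 1 ≤ e i
  · have k1 := fun i j => sum_ge (a := 1) (fun i _ => h0 i) (u i) (u j)
    have k2 := fun (h : ∀ i, 2 ≤ e i) i => (sum_ge (a := 2) (fun i _ => h i) (u i) (u i)).1
    simp only [h6, Finset.card_univ] at k1 k2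
    obtain ⟨i0⟩ : Nonempty ι := Fintype.card_pos_iff.1 (by omega)
    have h1 : Fintype.card ι = 3 ∨ Fintype.card ι = 4 ∨ Fintype.card ι = 5 ∨
      Fintype.card ι = 6 := by omega
    rcases h1 with h1 | h1 | h1 | h1 <;> simp only [h1] at k1 k2 hd
    · have h2 (i : ι) : 2 ≤ e i := by have := h0 i; have := he i; omega
      exact .inr (.inl ⟨h1, fun i => by have := k2 h2 i; have := h2 i; omega⟩)
    · refine .inr (.inr (.inl ⟨h1, ?_⟩))
      obtain ⟨i, hi⟩ : ∃ i, e i ≠ 1 := by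
        by_contra h
        push Not at h
        simp [h, h1] at h6
      obtain ⟨j, hj⟩ : ∃ j, e j = 1 := by
        by_contra h
        push Not at h
        have h2 (i : ι) : 2 ≤ e i := by have := h0 i; have := h i; omega
        have := k2 h2 i
        have := h2 i
        omega
      have h3 : 3 ≤ e i := by have := h0 i; have := he i; have := he j; omega
      refine ⟨i, ?_, fun k hk => ?_⟩
      · have := (k1 i i).1
        omega
      · have := (k1 i k).2 hk.symm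
        have := h0 k
        omega
    · have h2 (i : ι) : 2 ≤ e i := by have := h0 i; have := he i; omega
      have := k2 h2 i0
      have := h2 i0
      omega
    · exact .inl ⟨h1, fun i => by have := (k1 i i).1; have := h0 i; omega⟩
  · push Not at h0
    obtain ⟨i, hi⟩ := h0
    have hi' : i ∈ Finset.univ.filter fun i => e i ≤ 0 := Finset.mem_filter.2 ⟨u i, by omega⟩
    have h1 := Finset.card_pos.2 ⟨i, hi'⟩
    have h2 (k : ι) (hk : k ∈ Finset.univ.erase i) : 1 ≤ e k := by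
      by_contra h
      exact (Finset.mem_erase.1 hk).1 (Finset.card_le_one.1 (by omega) k
        (Finset.mem_filter.2 ⟨u k, by omega⟩) i hi')
    have h3 := hσ i
    have h4 : σ i ∈ Finset.univ.erase i :=
      Finset.mem_erase.2 ⟨fun h => by rw [h] at h3; omega, u _⟩
    have h5 := Finset.add_sum_erase _ e (u i)
    have h7 : (Finset.univ.erase i).card = Fintype.card ι - 1 := Finset.card_erase_of_mem (u i)
    have h8 : Fintype.card ι = 5 ∨ Fintype.card ι = 6 := by omega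
    rcases h8 with h8 | h8 <;> rw [h8] at hd h7
    · have := (sum_ge (e := e) (a := 2) (fun k hk => by
        have := h2 k hk; have := he k; omega) h4 h4).1
      omega
    · have h9 (k : ι) (hk : k ∈ Finset.univ.erase i) (hk' : k ≠ σ i) :
          e k = 1 ∧ e (σ i) + e i = 2 := by
        have := (sum_ge h2 h4 hk).2 hk'.symm
        have := h2 k hk
        omega
      obtain ⟨k, hk, hk'⟩ := Finset.exists_mem_ne (s := Finset.univ.erase i) (by omega) (σ i)
      refine .inr (.inr (.inr ⟨i, σ i, (h9 k hk hk').2, fun j hj => ?_⟩))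
      have := (h9 k hk hk').1
      have := he k
      have := he i
      by_cases hji : j = i
      · rw [hji]
        omega
      · have := (h9 j (Finset.mem_erase.2 ⟨hji, u j⟩) hj).1
        omega

/-- **End of the argument.** A minimal graded symmetric matrix glued to the form of the fibration:
the cubic is rational, or the degrees of the diagonal are `3, 1, 1, 1`, or they are `2, 2, 2` and
the form `zᵀ φ(x) z + w²` in `(x, w)` over `ℂ(z)` is anisotropic. -/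
theorem endt (hM : M.IsSymm) (hdeg : ∀ i j, (M i j).IsHomogeneous (1 + wt i + wt j))
    (hs : SmoothForm (cubicOf M)) (hsm : SmoothP M.det) (hl : l ≠ 0) (h : Glued M l φ)
    {g : ι → ℤ} {d : ℤ} (hφ : ∀ i j, φ i j = 0 ∨
      ∃ n : ℕ, 1 ≤ n ∧ (n : ℤ) = g i + g j + d ∧ (φ i j).IsHomogeneous n) :
    NetResult.RationalHypersurface (cubicOf M) ∨
      (Fintype.card ι = 4 ∧ ∃ i, 2 * g i + d = 3 ∧ ∀ j ≠ i, 2 * g j + d = 1) ∨
      ((∀ i, 2 * g i + d = 2) ∧ ∃ τ : Fin 3 ≃ ι, (∀ i j, (φ i j).IsHomogeneous 2) ∧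
        SmoothP (φ.submatrix τ τ).det ∧ ∀ (x : Fin 3 → RatK) (w : RatK),
          x ⬝ᵥ ((Tm (φ.submatrix τ τ)).map ev) *ᵥ x + w ^ 2 = 0 → x = 0 ∧ w = 0) := by
  refine or_iff_not_imp_left.2 fun hr => ?_
  have han (v : Fin 4 → RatK) (hv : v ⬝ᵥ (l • M.map ev) *ᵥ v = 0) : v = 0 := by
    by_contra h0
    rw [smul_mulVec, dotProduct_smul, smul_eq_mul] at hv
    exact hr (rational_of_isotropic_matrix M hdeg hs v h0 ((mul_eq_zero.1 hv).resolve_left hl))
  obtain ⟨c, hc, hd⟩ := h.det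
  have h6 := det_hom6 hdeg
  have hp := prime_of_smoothP h6 (by decide) hsm
  obtain ⟨k1, σ, k2⟩ := det_deg (φ := φ) (e := fun i => 2 * g i + d) (N := 6)
    (hd ▸ mul_ne_zero (C_ne_zero.2 hc) hp.ne_zero) (hd ▸ h6.C_mul c) fun i j =>
      (hφ i j).imp_right fun ⟨n, a1, a2, a3⟩ => ⟨n, a1, by omega, a3⟩
  have hz (i j : ι) (hij : 2 * g i + d + (2 * g j + d) ≤ 0) : φ i j = 0 :=
    (hφ i j).resolve_right fun ⟨n, a1, a2, _⟩ => by omega
  have hh (i j : ι) (n : ℕ) (hij : 2 * g i + d + (2 * g j + d) = 2 * n) :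
      (φ i j).IsHomogeneous n := by
    obtain h0 | ⟨k, -, a2, a3⟩ := hφ i j
    · rw [h0]
      exact isHomogeneous_zero _ _ _
    · obtain rfl : k = n := by omega
      exact a3
  set S := Finset.univ.filter fun i => 2 * g i + d ≤ 0 with hS
  have hS' : ∀ i ∈ S, ∀ j ∈ S, φ.map ev i j = 0 := fun i hi j hj => by
    have := (Finset.mem_filter.1 hi).2
    have := (Finset.mem_filter.1 hj).2
    rw [map_apply, hz i j (by omega), map_zero]
  obtain ⟨r, m, a1, a2, a3⟩ : ∃ r m : ℕ, r ≤ 1 ∧ 4 + (Fintype.card ι + r) = 2 * m ∧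
      m + S.card ≤ Fintype.card ι + r := by
    obtain ⟨m, hm | hm⟩ := (Fintype.card ι).even_or_odd'
    · obtain ⟨b1, U, b2, b3⟩ := h.lag hM hdeg hsm hl (m := m + 2) (by omega)
      exact ⟨0, m + 2, by omega, by omega, b3 ▸ wit_bound han b1 b2 S hS'⟩
    · obtain ⟨b1, U, b2, b3⟩ := h.one.lag hM hdeg hsm hl (m := m + 3) (by simp; omega)
      have := wit_bound han b1 b2 (S.map ⟨Sum.inl, Sum.inl_injective⟩) fun i hi j hj => by
        obtain ⟨i, hi', rfl⟩ := Finset.mem_map.1 hi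
        obtain ⟨j, hj', rfl⟩ := Finset.mem_map.1 hj
        exact hS' i hi' j hj'
      rw [Finset.card_map, Fintype.card_sum, Fintype.card_fin, b3] at this
      exact ⟨1, m + 3, le_rfl, by omega, this⟩
  obtain ⟨b1, b2⟩ | ⟨b1, b2⟩ | b | ⟨i, j, b1, b2⟩ :=
    patterns (e := fun i => 2 * g i + d) (fun _ => rfl) k1 k2 a1 a2 a3
  · exact absurd (Glued.net hM hdeg hs hsm hl han (h.sub (Fintype.equivFinOfCardEq b1).symm)
      fun i j => hh _ _ 1 (by rw [b2, b2]; rfl)) hr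
  · have τ := (Fintype.equivFinOfCardEq b1).symm
    have h2 (i j : ι) : (φ i j).IsHomogeneous 2 := hh _ _ 2 (by rw [b2, b2]; rfl)
    have h3 : SmoothP (φ.submatrix τ τ).det := fun z hz => hsm z fun i => by
      have := hz i
      rw [det_submatrix_equiv_self, hd, pderiv_C_mul, map_mul, eval_C] at this
      exact (mul_eq_zero.1 this).resolve_left hc
    refine .inr ⟨b2, τ, h2, h3, ?_⟩
    obtain ⟨c1, U, c2, c3⟩ := (h.sub τ).one.lag hM hdeg hsm hl (m := 4) (by simp)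
    obtain ⟨ψ, hψ⟩ := wit_iso han c1 c2 c3 (by simp)
    refine (verra M hdeg hs (h.symm.submatrix τ) (fun i j => h2 _ _) h3 hl
      (ψ.trans (LinearEquiv.funCongrLeft RatK RatK (finSumFinEquiv (m := 3) (n := 1)).symm)) fun v => ?_).resolve_left hr
    have h4 := hψ v
    rw [smul_mulVec, dotProduct_smul, smul_eq_mul] at h4
    rw [← h4, fromBlocks_map, fromBlocks_mulVec]
    conv_rhs => rw [← Sum.elim_comp_inl_inr (ψ v)]
    have h5 : ![(ψ.trans (LinearEquiv.funCongrLeft RatK RatK (finSumFinEquiv (m := 3) (n := 1)).symm)) v 0,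
        (ψ.trans (LinearEquiv.funCongrLeft RatK RatK (finSumFinEquiv (m := 3) (n := 1)).symm)) v 1,
        (ψ.trans (LinearEquiv.funCongrLeft RatK RatK (finSumFinEquiv (m := 3) (n := 1)).symm)) v 2] =
        ψ v ∘ Sum.inl := funext fun i => by fin_cases i <;> rfl
    have h7 : (ψ.trans (LinearEquiv.funCongrLeft RatK RatK (finSumFinEquiv (m := 3) (n := 1)).symm)) v 3 =
        ψ v (Sum.inr 0) := rfl
    rw [h5, h7, sumElim_dotProduct_sumElim]
    simp [dotProduct, pow_two]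
  · exact .inl b
  · have h1 := hh j i 1 b1
    have h2 := dvd_det (A := φ) (i := i) (j := j) fun k hk => hz k i (b2 k hk)
    have h3 : φ j i ≠ 0 := fun h0 => by
      rw [h0, zero_dvd_iff, hd] at h2
      exact mul_ne_zero (C_ne_zero.2 hc) hp.ne_zero h2
    rw [hd, ((isUnit_iff_ne_zero.2 hc).map C).dvd_mul_left] at h2
    exfalso
    obtain h4 | h4 := hp.irreducible.dvd_iff.1 h2
    · obtain ⟨a, -, ha⟩ := exists_C_of_isUnit h4
      exact absurd (h1.inj_right (ha ▸ isHomogeneous_C _ a) h3) (by decide)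
    · exact not_dvd_of_degree h6 h1 h3 (by decide) h4.dvd

end Vale.Agent.P287Z.V
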