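import Vale.Agent.P287Z.V.Vr4

/-!
# Gluing two lattices with the same discriminant form; consequences of a Lagrangian subspace
-/

namespace Vale.Agent.P287Z.V

open Module Matrix Polynomial Vale.Agent.P287 Vale.Agent.P287.Theta

section dual

variable {O K : Type*} [CommRing O] [IsDomain O] [Field K] [Algebra O K] [IsFractionRing O K]
  {ι : Type*} [Fintype ι] [DecidableEq ι]

theorem ker_line {κ : Type*} [Field κ] {A : Matrix ι ι κ} (h : A.adjugate ≠ 0) {x y : ι → κ}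
    (hx : A *ᵥ x = 0) (hy : A *ᵥ y = 0) (hy0 : y ≠ 0) : ∃ c : κ, x = c • y := by
  obtain ⟨i, j, hij⟩ : ∃ i j, A.adjugate i j ≠ 0 := by
    by_contra h1
    push Not at h1
    exact h (Matrix.ext h1)
  have key (z : ι → κ) (hz : A *ᵥ z = 0) (hi : z i = 0) : z = 0 := by
    have h1 : (A.updateCol i (Pi.single j 1)).det ≠ 0 := by
      rwa [← cramer_apply, cramer_eq_adjugate_mulVec, mulVec_single_one]
    refine eq_zero_of_mulVec_eq_zero h1 (funext fun k => ?_)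
    rw [← congrFun hz k, mulVec, mulVec, dotProduct, dotProduct]
    refine Finset.sum_congr rfl fun l _ => ?_
    by_cases hl : l = i
    · rw [hl, hi, mul_zero, mul_zero]
    · rw [updateCol_ne hl]
  have hyi : y i ≠ 0 := fun h1 => hy0 (key y hy h1)
  refine ⟨x i / y i, sub_eq_zero.1 (key _ ?_ ?_)⟩
  · rw [mulVec_sub, mulVec_smul, hx, hy, smul_zero, sub_zero]
  · rw [Pi.sub_apply, Pi.smul_apply, smul_eq_mul, div_mul_cancel₀ _ hyi, sub_self]

theorem adj_ne {G : Matrix ι ι O} {f u : O} (hf : Prime f) (hu : IsUnit u) (hG : G.det = u * f) :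
    ¬ ∀ i j, f ∣ G.adjugate i j := fun h => by
  choose A hA using h
  have h1 : G.adjugate = f • Matrix.of A := by
    ext i j
    rw [hA, Matrix.smul_apply, smul_eq_mul, of_apply]
  have h2 := mul_adjugate G
  rw [h1, hG, Matrix.mul_smul, mul_comm u, mul_smul] at h2
  have h3 : G * Matrix.of A = u • (1 : Matrix ι ι O) := by
    ext i j
    exact mul_left_cancel₀ hf.ne_zero (congrFun (congrFun h2 i) j)
  have h4 := congrArg det h3
  rw [det_mul, det_smul, det_one, mul_one, hG] at h4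
  exact hf.not_isUnit (isUnit_of_mul_isUnit_right (isUnit_of_mul_isUnit_left (h4 ▸ hu.pow _)))

/-- the dual of the standard lattice is generated by any vector outside the lattice -/
theorem dual_gen [IsPrincipalIdealRing O] {G : Matrix ι ι O} {f u : O} (hf : Prime f)
    (hu : IsUnit u) (hG : G.det = u * f) {w x : ι → K}
    (hw : ∀ i, (G.map (algebraMap O K) *ᵥ w) i ∈ (algebraMap O K).range)
    (hw0 : ¬ ∀ i, w i ∈ (algebraMap O K).range)
    (hx : ∀ i, (G.map (algebraMap O K) *ᵥ x) i ∈ (algebraMap O K).range) :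
    ∃ c : O, ∀ i, x i - algebraMap O K c * w i ∈ (algebraMap O K).range := by
  have hinj := IsFractionRing.injective O K
  have hf0 : algebraMap O K f ≠ 0 := (map_ne_zero_iff _ hinj).2 hf.ne_zero
  obtain ⟨u, rfl⟩ := hu
  have key (z : ι → K) (hz : ∀ i, (G.map (algebraMap O K) *ᵥ z) i ∈ (algebraMap O K).range) :
      ∃ a : ι → O, (∀ i, algebraMap O K (a i) = algebraMap O K f * z i) ∧
        ∀ i, f ∣ (G *ᵥ a) i := by
    choose b hb using hz
    refine ⟨(↑u⁻¹ : O) • (G.adjugate *ᵥ b), fun i => ?_, fun i => ?_⟩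
    · have h1 : (fun i => algebraMap O K (b i)) = G.map (algebraMap O K) *ᵥ z := funext hb
      have h2 := RingHom.map_mulVec (algebraMap O K) G.adjugate b i
      rw [Pi.smul_apply, smul_eq_mul, map_mul, h2, show (algebraMap O K) ∘ b = _ from h1,
        mulVec_mulVec, ← Matrix.map_mul, adjugate_mul, hG]
      simp only [mulVec, dotProduct, map_apply, Matrix.smul_apply, smul_eq_mul, one_apply,
        mul_ite, mul_one, mul_zero, apply_ite (algebraMap O K), map_zero, ite_mul, zero_mul,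
        Finset.sum_ite_eq, Finset.mem_univ, if_true]
      rw [← mul_assoc, ← map_mul, Units.inv_mul_cancel_left]
    · rw [mulVec_smul, mulVec_mulVec, mul_adjugate, hG, smul_mulVec, one_mulVec, smul_smul,
        Units.inv_mul_cancel_left]
      exact dvd_mul_right _ _
  obtain ⟨a, ha, ha'⟩ := key x hx
  obtain ⟨b, hb, hb'⟩ := key w hw
  have : (Ideal.span {f}).IsMaximal := PrincipalIdealRing.isMaximal_of_irreducible hf.irreducible
  let _ := Ideal.Quotient.field (Ideal.span {f})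
  set π := Ideal.Quotient.mk (Ideal.span {f}) with hπ
  have h0 (p : O) : π p = 0 ↔ f ∣ p := Ideal.Quotient.eq_zero_iff_mem.trans Ideal.mem_span_singleton
  have hk {a : ι → O} (h : ∀ i, f ∣ (G *ᵥ a) i) : G.map π *ᵥ (π ∘ a) = 0 := funext fun i => by
    rw [← RingHom.map_mulVec]
    exact (h0 _).2 (h i)
  obtain ⟨c, hc⟩ := ker_line (A := G.map π) (fun h => adj_ne hf u.isUnit hG fun i j => by
      have := congrFun (congrFun (RingHom.map_adjugate π G) i) j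
      rw [RingHom.mapMatrix_apply, RingHom.mapMatrix_apply, h] at this
      exact (h0 _).1 this) (hk ha') (hk hb') (fun h => hw0 fun i => by
      obtain ⟨d, hd⟩ := (h0 _).1 (congrFun h i)
      exact ⟨d, mul_left_cancel₀ hf0 (by rw [← hb, hd, map_mul])⟩)
  obtain ⟨c, rfl⟩ := Ideal.Quotient.mk_surjective c
  refine ⟨c, fun i => ?_⟩
  obtain ⟨d, hd⟩ := (h0 (a i - c * b i)).1 (by
    rw [map_sub, map_mul, sub_eq_zero]
    exact congrFun hc i)
  refine ⟨d, mul_left_cancel₀ hf0 ?_⟩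
  rw [← map_mul, ← hd, map_sub, map_mul, ha, hb]
  ring

end dual

/-- the image of `ℂ(x)[y]` in `K` -/
noncomputable abbrev OK : Subring RatK := (algebraMap FF[X] RatK).range

/-- a lattice over `ℂ(x)[y]` for the form `Q` whose dual is generated by the vector `v` -/
structure Lat (Q : Matrix (Fin 4) (Fin 4) RatK) (Λ : Submodule FF[X] (Fin 4 → RatK))
    (v : Fin 4 → RatK) : Prop where
  fg : Λ.FG
  span : ∀ x : Fin 4 → RatK, ∃ c : FF[X], c ≠ 0 ∧ c • x ∈ Λ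
  int : ∀ x ∈ Λ, ∀ y ∈ Λ, x ⬝ᵥ Q *ᵥ y ∈ OK
  mem : ∀ y ∈ Λ, v ⬝ᵥ Q *ᵥ y ∈ OK
  gen : ∀ x : Fin 4 → RatK, (∀ y ∈ Λ, x ⬝ᵥ Q *ᵥ y ∈ OK) → ∃ c : FF[X], x - c • v ∈ Λ
  nd : ∀ c : FF[X], c • (v ⬝ᵥ Q *ᵥ v) ∈ OK → c • v ∈ Λ
  nint : v ⬝ᵥ Q *ᵥ v ∉ OK

variable {ι : Type} [Fintype ι] [DecidableEq ι]

theorem bil_blocks {K : Type*} [Field K] (Q : Matrix (Fin 4) (Fin 4) K) (G : Matrix ι ι K)
    (x y : Fin 4 ⊕ ι → K) : Matrix.toBilin' (fromBlocks Q 0 0 (-G)) x y =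
      (x ∘ Sum.inl) ⬝ᵥ Q *ᵥ (y ∘ Sum.inl) - (x ∘ Sum.inr) ⬝ᵥ G *ᵥ (y ∘ Sum.inr) := by
  rw [Matrix.toBilin'_apply', fromBlocks_mulVec]
  conv_lhs => rw [← Sum.elim_comp_inl_inr x]
  rw [sumElim_dotProduct_sumElim, zero_mulVec, zero_mulVec, add_zero, zero_add, neg_mulVec,
    dotProduct_neg, sub_eq_add_neg]

theorem symm_dot {K κ : Type*} [CommRing K] [Fintype κ] {Q : Matrix κ κ K} (hQ : Q.IsSymm)
    (x y : κ → K) : x ⬝ᵥ Q *ᵥ y = y ⬝ᵥ Q *ᵥ x := by
  rw [dotProduct_mulVec, ← mulVec_transpose, hQ.eq, dotProduct_comm]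

theorem lagr {Q : Matrix (Fin 4) (Fin 4) RatK} (hQ : Q.IsSymm) (hQ0 : Q.det ≠ 0)
    {Λ : Submodule FF[X] (Fin 4 → RatK)} {v : Fin 4 → RatK} (h : Lat Q Λ v)
    {G : Matrix ι ι FF[X]} (hG : G.IsSymm) {f u : FF[X]} (hf : Prime f) (hu : IsUnit u)
    (hd : G.det = u * f) {w : ι → RatK} (hw : ∀ i, (G.map (algebraMap _ RatK) *ᵥ w) i ∈ OK)
    (hvw : v ⬝ᵥ Q *ᵥ v - w ⬝ᵥ G.map (algebraMap _ RatK) *ᵥ w ∈ OK)
    (hsq : IsSquare (Q.det * algebraMap _ RatK G.det)) {m : ℕ} (hm : 4 + Fintype.card ι = 2 * m) :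
    ∃ U : Submodule RatK (Fin 4 ⊕ ι → RatK), (∀ x ∈ U, ∀ y ∈ U, (x ∘ Sum.inl) ⬝ᵥ Q *ᵥ (y ∘ Sum.inl) =
      (x ∘ Sum.inr) ⬝ᵥ G.map (algebraMap _ RatK) *ᵥ (y ∘ Sum.inr)) ∧ finrank RatK U = m := by
  have hinj := IsFractionRing.injective FF[X] RatK
  set G' := G.map (algebraMap FF[X] RatK) with hG'
  have hGs : G'.IsSymm := hG.map _
  have hdet : G'.det = algebraMap _ RatK G.det := ((algebraMap FF[X] RatK).map_det G).symm
  have hG0 : G'.det ≠ 0 := by
    rw [hdet, hd]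
    exact (map_ne_zero_iff _ hinj).2 (mul_ne_zero hu.ne_zero hf.ne_zero)
  have hdot {x y : ι → RatK} (hx : ∀ i, x i ∈ OK) (hy : ∀ i, y i ∈ OK) : x ⬝ᵥ y ∈ OK :=
    OK.sum_mem fun i _ => OK.mul_mem (hx i) (hy i)
  have hmv {y : ι → RatK} (hy : ∀ i, y i ∈ OK) (i : ι) : (G' *ᵥ y) i ∈ OK :=
    hdot (fun j => ⟨G i j, rfl⟩) hy
  have hsm (c : FF[X]) {a : RatK} (ha : a ∈ OK) : c • a ∈ OK := by
    rw [Algebra.smul_def]
    exact OK.mul_mem ⟨c, rfl⟩ ha
  have hw0 : ¬ ∀ i, w i ∈ OK := fun h1 => h.nint (by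
    simpa using OK.add_mem hvw (hdot h1 hw))
  let Λ2 : Submodule FF[X] (ι → RatK) := LinearMap.range
    ((Algebra.linearMap FF[X] RatK).compLeft ι)
  have hΛ2 (y : ι → RatK) : y ∈ Λ2 ↔ ∀ i, y i ∈ OK :=
    ⟨fun ⟨a, ha⟩ i => ⟨a i, congrFun ha i⟩, fun hy => by
      choose a ha using hy
      exact ⟨a, funext ha⟩⟩
  let e := LinearEquiv.sumArrowLequivProdArrow (Fin 4) ι FF[X] RatK
  let N : Submodule FF[X] (Fin 4 ⊕ ι → RatK) :=
    (Λ.prod Λ2 ⊔ Submodule.span FF[X] {(v, w)}).map e.symm.toLinearMap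
  have hN (x : Fin 4 ⊕ ι → RatK) : x ∈ N ↔ ∃ c : FF[X], x ∘ Sum.inl - c • v ∈ Λ ∧
      ∀ i, (x ∘ Sum.inr - c • w) i ∈ OK := by
    rw [Submodule.mem_map_equiv, LinearEquiv.symm_symm, Submodule.mem_sup]
    constructor
    · rintro ⟨y, hy, z, hz, hyz⟩
      obtain ⟨c, rfl⟩ := Submodule.mem_span_singleton.1 hz
      have h1 := eq_sub_of_add_eq hyz
      rw [h1] at hy
      exact ⟨c, hy.1, (hΛ2 _).1 hy.2⟩
    · rintro ⟨c, h1, h2⟩
      exact ⟨e x - c • (v, w), ⟨h1, (hΛ2 _).2 h2⟩, c • (v, w),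
        Submodule.mem_span_singleton.2 ⟨c, rfl⟩, sub_add_cancel _ _⟩
  have hB (x y : Fin 4 ⊕ ι → RatK) : Matrix.toBilin' (fromBlocks Q 0 0 (-G')) x y =
      Matrix.toBilin' (fromBlocks Q 0 0 (-G')) y x := by
    rw [bil_blocks, bil_blocks, symm_dot hQ, symm_dot hGs]
  have hdB : (fromBlocks Q 0 0 (-G')).det = Q.det * ((-1) ^ Fintype.card ι * G'.det) := by
    rw [det_fromBlocks_zero₂₁, det_neg]
  have hSD : SelfDual (Matrix.toBilin' (fromBlocks Q 0 0 (-G'))) ⊤ N := by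
    refine ⟨fun _ _ => trivial, ?_, fun x hx y hy => ?_, fun x _ hx => ?_, fun x _ => ?_,
      fun x _ hx => ?_⟩
    · refine Submodule.FG.map _ (Submodule.FG.sup (h.fg.prod ?_) (Submodule.fg_span_singleton _))
      exact Submodule.fg_range _
    · obtain ⟨c, a1, a2⟩ := (hN x).1 hx
      obtain ⟨d, b1, b2⟩ := (hN y).1 hy
      rw [bil_blocks, ← sub_add_cancel (x ∘ Sum.inl) (c • v), ← sub_add_cancel (y ∘ Sum.inl) (d • v),
        ← sub_add_cancel (x ∘ Sum.inr) (c • w), ← sub_add_cancel (y ∘ Sum.inr) (d • w)]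
      generalize x ∘ Sum.inl - c • v = x1 at a1
      generalize y ∘ Sum.inl - d • v = y1 at b1
      generalize x ∘ Sum.inr - c • w = x2 at a2
      generalize y ∘ Sum.inr - d • w = y2 at b2
      have k : (x1 + c • v) ⬝ᵥ Q *ᵥ (y1 + d • v) - (x2 + c • w) ⬝ᵥ G' *ᵥ (y2 + d • w) =
          x1 ⬝ᵥ Q *ᵥ y1 + d • (v ⬝ᵥ Q *ᵥ x1) + c • (v ⬝ᵥ Q *ᵥ y1) - x2 ⬝ᵥ G' *ᵥ y2 -
          d • (x2 ⬝ᵥ G' *ᵥ w) - c • (y2 ⬝ᵥ G' *ᵥ w) + (c * d) • (v ⬝ᵥ Q *ᵥ v - w ⬝ᵥ G' *ᵥ w) := by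
        simp only [mulVec_add, mulVec_smul, add_dotProduct, dotProduct_add, smul_dotProduct,
          dotProduct_smul, symm_dot hQ x1 v, symm_dot hGs w y2]
        simp only [Algebra.smul_def, map_mul]
        ring
      rw [k]
      exact OK.add_mem (OK.sub_mem (OK.sub_mem (OK.sub_mem (OK.add_mem (OK.add_mem
        (h.int _ a1 _ b1) (hsm _ (h.mem _ a1))) (hsm _ (h.mem _ b1))) (hdot a2 (hmv b2)))
        (hsm _ (hdot a2 hw))) (hsm _ (hdot b2 hw))) (hsm _ hvw)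
    · obtain ⟨c, hc⟩ := h.gen (x ∘ Sum.inl) fun y hy => by
        have := hx (Sum.elim y 0) ((hN _).2 ⟨0, by simpa using hy, fun i => by simp⟩)
        simpa [bil_blocks] using this
      obtain ⟨d, hd'⟩ := dual_gen hf hu hd hw hw0 (x := x ∘ Sum.inr) fun i => by
        have := hx (Sum.elim 0 (Pi.single i 1)) ((hN _).2 ⟨0, by
          rw [Sum.elim_comp_inl, zero_smul, sub_zero]; exact Λ.zero_mem, fun j => by
          simp only [Sum.elim_comp_inr, zero_smul, sub_zero, Pi.single_apply]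
          split_ifs
          exacts [OK.one_mem, OK.zero_mem]⟩)
        rw [bil_blocks, Sum.elim_comp_inl, Sum.elim_comp_inr, mulVec_zero, dotProduct_zero,
          zero_sub, symm_dot hGs, single_one_dotProduct] at this
        simpa using OK.neg_mem this
      have hd'' : ∀ i, (x ∘ Sum.inr - d • w) i ∈ OK := fun i => by
        simpa [Algebra.smul_def] using hd' i
      have h1 := hx (Sum.elim v w) ((hN _).2 ⟨1, by simp, by simp⟩)
      rw [bil_blocks, Sum.elim_comp_inl, Sum.elim_comp_inr] at h1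
      have h2 : (c - d) • (v ⬝ᵥ Q *ᵥ v) = (x ∘ Sum.inl) ⬝ᵥ Q *ᵥ v - (x ∘ Sum.inr) ⬝ᵥ G' *ᵥ w -
          v ⬝ᵥ Q *ᵥ (x ∘ Sum.inl - c • v) + (x ∘ Sum.inr - d • w) ⬝ᵥ G' *ᵥ w -
          d • (v ⬝ᵥ Q *ᵥ v - w ⬝ᵥ G' *ᵥ w) := by
        simp only [mulVec_sub, mulVec_smul, sub_dotProduct, dotProduct_sub, smul_dotProduct,
          dotProduct_smul, symm_dot hQ v (x ∘ Sum.inl)]
        simp only [Algebra.smul_def, map_sub]
        ring
      have h3 := h.nd (c - d) (h2 ▸ OK.sub_mem (OK.add_mem (OK.sub_mem h1 (h.mem _ hc))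
        (hdot hd'' hw)) (hsm _ hvw))
      refine (hN x).2 ⟨d, ?_, hd''⟩
      have := Λ.add_mem hc h3
      rwa [sub_smul, sub_add_sub_cancel] at this
    · obtain ⟨c, hc, h1⟩ := h.span (x ∘ Sum.inl)
      obtain ⟨D, hD⟩ := IsLocalization.exist_integer_multiples_of_finite
        (nonZeroDivisors FF[X]) (x ∘ Sum.inr)
      refine ⟨D * c, mul_ne_zero (nonZeroDivisors.ne_zero D.2) hc, (hN _).2 ⟨0, ?_, fun i => ?_⟩⟩
      · rw [zero_smul, sub_zero]
        exact (congrArg (· ∈ Λ) (mul_smul D.1 c (x ∘ Sum.inl))).mpr (Λ.smul_mem D.1 h1)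
      · rw [zero_smul, sub_zero, mul_comm]
        exact (congrArg (· ∈ OK) (mul_smul c D.1 (x (Sum.inr i)))).mpr (hsm c (hD i))
    · refine eq_zero_of_vecMul_eq_zero (M := fromBlocks Q 0 0 (-G')) (by
        rw [hdB]
        exact mul_ne_zero hQ0 (mul_ne_zero (pow_ne_zero _ (by norm_num)) hG0)) (funext fun i => ?_)
      have := hx (Pi.single i 1) trivial
      rwa [Matrix.toBilin'_apply', dotProduct_mulVec, dotProduct_single_one] at this
  obtain ⟨U, -, h1, h2⟩ := hSD.exists_lagrangian ℂ hB m (by simp [hm]) (sq_of_isSquare_det _ (by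
    obtain ⟨i, hi⟩ := IsAlgClosed.exists_pow_nat_eq (-1 : ℂ) (n := 2) (by norm_num)
    rw [hdB, mul_left_comm, hdet]
    refine IsSquare.mul (IsSquare.pow _ ⟨algebraMap ℂ RatK i, ?_⟩) hsq
    rw [← map_mul, ← pow_two, hi, map_neg, map_one]))
  exact ⟨U, fun x hx y hy => sub_eq_zero.1 ((bil_blocks Q G' x y).symm.trans (h1 x hx y hy)), h2⟩

end Vale.Agent.P287Z.V
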