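import Vale.Agent.P287Z.L.Sk

/-!
# The skew form on the finite length module with a symmetric self-dual resolution
-/

namespace Vale.Agent.P287Z.V

open Module Matrix MvPolynomial Vale.Agent.P287 Vale.Agent.P287.Theta

theorem even_skew {W : Type*} [AddCommGroup W] [Module ℂ W] [FiniteDimensional ℂ W]
    (B : LinearMap.BilinForm ℂ W) (h : ∀ x y, B x y = -B y x)
    (hn : ∀ x, (∀ y, B x y = 0) → x = 0) : Even (finrank ℂ W) := by
  have b := Module.finBasis ℂ W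
  have h1 : (LinearMap.BilinForm.toMatrix b B).det ≠ 0 :=
    (LinearMap.BilinForm.nondegenerate_iff_det_ne_zero b).1
      ⟨hn, fun x hx => hn x fun y => by rw [h, hx, neg_zero]⟩
  have h2 : (LinearMap.BilinForm.toMatrix b B)ᵀ = -LinearMap.BilinForm.toMatrix b B := by
    ext i j
    rw [transpose_apply, Matrix.neg_apply, LinearMap.BilinForm.toMatrix_apply,
      LinearMap.BilinForm.toMatrix_apply, h]
  have h3 := congrArg det h2
  rw [det_transpose, det_neg, Fintype.card_fin] at h3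
  by_contra h4
  rw [(Nat.not_even_iff_odd.1 h4).neg_one_pow, neg_one_mul, eq_neg_iff_add_eq_zero,
    ← two_mul] at h3
  exact mul_ne_zero two_ne_zero h1 h3

theorem even_codim {D W : Type*} [AddCommGroup D] [Module ℂ D] [AddCommGroup W] [Module ℂ W]
    [FiniteDimensional ℂ W] (B : LinearMap.BilinForm ℂ D) (h : ∀ x y, B x y = -B y x)
    (π : D →ₗ[ℂ] W) (hπ : Function.Surjective π) (I : Submodule ℂ W)
    (hI : ∀ x, π x ∈ I ↔ ∀ y, B x y = 0) : ∃ m, finrank ℂ W = finrank ℂ I + 2 * m := by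
  obtain ⟨σ, hσ⟩ := π.exists_rightInverse_of_surjective (LinearMap.range_eq_top.2 hπ)
  have hσ' (x : W) : π (σ x) = x := LinearMap.congr_fun hσ x
  obtain ⟨C, hC⟩ := I.exists_isCompl
  obtain ⟨m, hm⟩ := even_skew (B.compl₁₂ (σ ∘ₗ C.subtype) (σ ∘ₗ C.subtype)) (fun x y => h _ _)
    fun x hx => by
      have h1 : (x : W) ∈ I := by
        rw [← hσ' x, hI]
        intro y
        obtain ⟨a, ha, c, hc, hac⟩ := Submodule.mem_sup.1 (hC.sup_eq_top ▸ Submodule.mem_top :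
          π y ∈ I ⊔ C)
        have h2 : π (y - σ c) ∈ I := by rwa [map_sub, hσ', ← hac, add_sub_cancel_right]
        rw [← sub_add_cancel y (σ c), map_add, h, (hI _).1 h2, neg_zero, zero_add]
        exact hx ⟨c, hc⟩
      exact Subtype.ext ((Submodule.disjoint_def.1 hC.disjoint) _ h1 x.2)
  exact ⟨m, by rw [← Submodule.finrank_add_eq_of_isCompl hC, hm, two_mul]⟩

variable (N : ℕ)

/-- the exponent of the socle monomial -/
noncomputable def soc : Fin 3 →₀ ℕ := Finsupp.equivFunOnFinite.symm fun _ => N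

theorem soc_apply (i : Fin 3) : soc N i = N := rfl

theorem coeff_y {m : Fin 3 →₀ ℕ} {i : Fin 3} (h : m i ≤ N) (p : P3) :
    coeff m (X i ^ (N + 1) * p) = 0 := by
  rw [X_pow_eq_monomial, coeff_monomial_mul', if_neg]
  rw [Finsupp.single_le_iff]
  omega

theorem coeff_reg {m : Fin 3 →₀ ℕ} {i j k : Fin 3} (hj : j ≠ i) (hk : k ≠ i) (h1 : m j ≤ N)
    (h2 : m k ≤ N) {z u v : P3}
    (h : X i ^ (N + 1) * z = X j ^ (N + 1) * u + X k ^ (N + 1) * v) : coeff m z = 0 := by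
  have h3 := congrArg (coeff (Finsupp.single i (N + 1) + m)) h
  rw [coeff_add, coeff_y N (i := j) (by simpa [Finsupp.single_eq_of_ne hj] using h1),
    coeff_y N (i := k) (by simpa [Finsupp.single_eq_of_ne hk] using h2), X_pow_eq_monomial,
    coeff_monomial_mul, one_mul, add_zero] at h3
  exact h3

theorem mem_y (s : Finset (Fin 3)) {p : P3} (h : ∀ m : Fin 3 →₀ ℕ, (∀ i ∈ s, m i ≤ N) →
    coeff m p = 0) : ∃ q : Fin 3 → P3, p = ∑ i ∈ s, X i ^ (N + 1) * q i := by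
  have h1 : p ∈ Ideal.span ((fun m => monomial m (1 : ℂ)) ''
      ((fun i => Finsupp.single i (N + 1)) '' (s : Set (Fin 3)))) := by
    refine mem_ideal_span_monomial_image.2 fun m hm => ?_
    by_contra h2
    refine mem_support_iff.1 hm (h m fun i hi => ?_)
    by_contra h3
    exact h2 ⟨_, ⟨i, hi, rfl⟩, Finsupp.single_le_iff.2 (by omega)⟩
  rw [Set.image_image] at h1
  obtain ⟨q, hq⟩ := (Submodule.mem_span_image_finset_iff_exists_fun' P3).1 h1
  exact ⟨q, by rw [← hq]; simp only [X_pow_eq_monomial, smul_eq_mul, mul_comm]⟩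

theorem dvd_y {i j : Fin 3} (hij : i ≠ j) {u v : P3}
    (h : X i ^ (N + 1) * u = X j ^ (N + 1) * v) : ∃ w, u = X j ^ (N + 1) * w := by
  obtain ⟨q, hq⟩ := mem_y N {j} (p := u) fun m hm => coeff_reg N hij.symm hij.symm
    (hm j (by simp)) (hm j (by simp)) (u := v) (v := 0) (by rw [h, mul_zero, add_zero])
  exact ⟨q j, by simpa using hq⟩

theorem y_ne (i : Fin 3) : (X i : P3) ^ (N + 1) ≠ 0 := pow_ne_zero _ (X_ne_zero i)

theorem kos1 {r : Fin 3 → P3} (h1 : X 1 ^ (N + 1) * r 0 = X 0 ^ (N + 1) * r 1)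
    (h2 : X 2 ^ (N + 1) * r 0 = X 0 ^ (N + 1) * r 2) : ∃ h, ∀ i, r i = X i ^ (N + 1) * h := by
  obtain ⟨w, hw⟩ := dvd_y N (by decide) h1
  refine ⟨w, fun i => ?_⟩
  fin_cases i
  · exact hw
  · exact mul_left_cancel₀ (y_ne N 0) (h1.symm.trans (by rw [hw]; exact mul_left_comm _ _ _))
  · exact mul_left_cancel₀ (y_ne N 0) (h2.symm.trans (by rw [hw]; exact mul_left_comm _ _ _))

theorem kos2 {r : Fin 3 → P3}
    (h : X 0 ^ (N + 1) * r 0 + X 1 ^ (N + 1) * r 1 + X 2 ^ (N + 1) * r 2 = 0) :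
    ∃ g : Fin 3 → P3, r 0 = X 1 ^ (N + 1) * g 2 - X 2 ^ (N + 1) * g 1 ∧
      r 1 = X 2 ^ (N + 1) * g 0 - X 0 ^ (N + 1) * g 2 ∧
      r 2 = X 0 ^ (N + 1) * g 1 - X 1 ^ (N + 1) * g 0 := by
  obtain ⟨q, hq⟩ := mem_y N {0, 1} (p := r 2) fun m hm => coeff_reg N (i := 2) (by decide)
    (by decide) (hm 0 (by simp)) (hm 1 (by simp)) (u := -r 0) (v := -r 1) (by linear_combination h)
  rw [Finset.sum_pair (by decide)] at hq
  obtain ⟨w, hw⟩ := dvd_y N (i := 0) (j := 1) (by decide) (u := r 0 + X 2 ^ (N + 1) * q 0)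
    (v := -(r 1 + X 2 ^ (N + 1) * q 1)) (by linear_combination h - X 2 ^ (N + 1) * hq)
  refine ⟨![-q 1, q 0, w], ?_, mul_left_cancel₀ (y_ne N 1) ?_, ?_⟩ <;>
    simp only [cons_val_zero, cons_val_one, cons_val_two, Nat.succ_eq_add_one, tail_cons, head_cons]
  · linear_combination hw
  · linear_combination h - X 2 ^ (N + 1) * hq - X 0 ^ (N + 1) * hw
  · linear_combination hq

variable {ι κ : Type} [Fintype ι] [Fintype κ] (S : Matrix ι κ P3) (T : Matrix ι ι P3)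

/-- a map from the Koszul complex of the powers of the variables to the resolution -/
structure Lf (x : (κ → P3) × (Fin 3 → ι → P3) × (Fin 3 → ι → P3) × (κ → P3)) : Prop where
  a : ∀ i, Sᵀ *ᵥ x.2.1 i = (X i ^ (N + 1) : P3) • x.1
  b0 : T *ᵥ x.2.2.1 0 = (X 1 ^ (N + 1) : P3) • x.2.1 2 - (X 2 ^ (N + 1) : P3) • x.2.1 1
  b1 : T *ᵥ x.2.2.1 1 = (X 2 ^ (N + 1) : P3) • x.2.1 0 - (X 0 ^ (N + 1) : P3) • x.2.1 2
  b2 : T *ᵥ x.2.2.1 2 = (X 0 ^ (N + 1) : P3) • x.2.1 1 - (X 1 ^ (N + 1) : P3) • x.2.1 0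
  c : S *ᵥ x.2.2.2 = (X 0 ^ (N + 1) : P3) • x.2.2.1 0 + (X 1 ^ (N + 1) : P3) • x.2.2.1 1 +
    (X 2 ^ (N + 1) : P3) • x.2.2.1 2

variable {N S T} {x y : (κ → P3) × (Fin 3 → ι → P3) × (Fin 3 → ι → P3) × (κ → P3)}

theorem Lf.key (hx : Lf N S T x) (hy : Lf N S T y) (j : Fin 3) :
    X j ^ (N + 1) * (y.1 ⬝ᵥ x.2.2.2) = X 0 ^ (N + 1) * (y.2.1 j ⬝ᵥ x.2.2.1 0) +
      X 1 ^ (N + 1) * (y.2.1 j ⬝ᵥ x.2.2.1 1) + X 2 ^ (N + 1) * (y.2.1 j ⬝ᵥ x.2.2.1 2) := by
  rw [← smul_eq_mul, ← smul_dotProduct, ← hy.a, mulVec_transpose, ← dotProduct_mulVec, hx.c]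
  simp only [dotProduct_add, dotProduct_smul, smul_eq_mul]

theorem Lf.skew (hT : T.IsSymm) (hx : Lf N S T x) (hy : Lf N S T y) :
    coeff (soc N) (y.1 ⬝ᵥ x.2.2.2) = -coeff (soc N) (x.1 ⬝ᵥ y.2.2.2) := by
  have h1 := coeff_reg N (m := soc N) (i := 2) (j := 0) (k := 1) (by decide) (by decide) le_rfl
    le_rfl (z := y.1 ⬝ᵥ x.2.2.2 - y.2.1 2 ⬝ᵥ x.2.2.1 2) (by rw [mul_sub, hx.key hy 2, add_sub_cancel_right])
  have h2 := coeff_reg N (m := soc N) (i := 0) (j := 1) (k := 2) (by decide) (by decide) le_rfl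
    le_rfl (z := x.1 ⬝ᵥ y.2.2.2 - x.2.1 0 ⬝ᵥ y.2.2.1 0)
    (by rw [mul_sub, hy.key hx 0, add_assoc, add_sub_cancel_left])
  have h3 : x.2.2.1 2 ⬝ᵥ T *ᵥ y.2.2.1 0 = y.2.2.1 0 ⬝ᵥ T *ᵥ x.2.2.1 2 := by
    rw [dotProduct_mulVec, ← mulVec_transpose, hT.eq, dotProduct_comm]
  rw [hy.b0, hx.b2] at h3
  simp only [dotProduct_sub, dotProduct_smul, smul_eq_mul] at h3
  have h4 := coeff_reg N (m := soc N) (i := 1) (j := 0) (k := 2) (by decide) (by decide) le_rfl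
    le_rfl (z := x.2.2.1 2 ⬝ᵥ y.2.1 2 + y.2.2.1 0 ⬝ᵥ x.2.1 0) (u := y.2.2.1 0 ⬝ᵥ x.2.1 1)
    (v := x.2.2.1 2 ⬝ᵥ y.2.1 1) (by linear_combination h3)
  rw [coeff_sub] at h1 h2
  rw [coeff_add, dotProduct_comm (x.2.2.1 2), dotProduct_comm (y.2.2.1 0)] at h4
  linear_combination h1 + h2 + h4

theorem Lf.rad1 (hy : Lf N S T y) (h : ι → P3) :
    coeff (soc N) ((Sᵀ *ᵥ h) ⬝ᵥ y.2.2.2) = 0 := by
  rw [mulVec_transpose, ← dotProduct_mulVec, hy.c]
  simp only [dotProduct_add, dotProduct_smul, smul_eq_mul, coeff_add,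
    coeff_y N (le_of_eq (soc_apply N _)), add_zero]

theorem Lf.rad2 (hT : T.IsSymm) (hS : T * S = 0) (hx : Lf N S T x)
    (h : ∀ j, ∀ m : Fin 3 →₀ ℕ, (∀ i, m i ≤ N) → coeff m (x.2.2.2 j) = 0) :
    ∃ h, x.1 = Sᵀ *ᵥ h := by
  choose q hq using fun j => mem_y N Finset.univ (p := x.2.2.2 j) fun m hm =>
    h j m fun i => hm i (Finset.mem_univ i)
  have h1 : x.2.2.2 = (X 0 ^ (N + 1) : P3) • (fun j => q j 0) + (X 1 ^ (N + 1) : P3) •
      (fun j => q j 1) + (X 2 ^ (N + 1) : P3) • (fun j => q j 2) := funext fun j => by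
    rw [hq, Fin.sum_univ_three]
    rfl
  have h2 := hx.c
  rw [h1] at h2
  simp only [mulVec_add, mulVec_smul] at h2
  choose g g0 g1 g2 using fun a => kos2 N
    (r := fun i => x.2.2.1 i a - (S *ᵥ fun j => q j i) a) (by
      have := congrFun h2 a
      simp only [Pi.add_apply, Pi.smul_apply, smul_eq_mul] at this
      linear_combination -this)
  have k (i j l : Fin 3) (h3 : ∀ a, x.2.2.1 i a - (S *ᵥ fun j => q j i) a =
      X j ^ (N + 1) * g a l - X l ^ (N + 1) * g a j) : T *ᵥ x.2.2.1 i =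
      (X j ^ (N + 1) : P3) • (T *ᵥ fun a => g a l) - (X l ^ (N + 1) : P3) • T *ᵥ fun a => g a j := by
    have h4 : x.2.2.1 i = S *ᵥ (fun j => q j i) + ((X j ^ (N + 1) : P3) • (fun a => g a l) -
        (X l ^ (N + 1) : P3) • fun a => g a j) := funext fun a => eq_add_of_sub_eq' (h3 a)
    rw [h4, mulVec_add, mulVec_mulVec, hS, zero_mulVec, zero_add, mulVec_sub, mulVec_smul,
      mulVec_smul]
  choose w hw using fun a => kos1 N (r := fun i => x.2.1 i a - (T *ᵥ fun a => g a i) a) (by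
      have := congrFun (hx.b2.symm.trans (k 2 0 1 g2)) a
      simp only [Pi.sub_apply, Pi.smul_apply, smul_eq_mul] at this
      linear_combination -this) (by
      have := congrFun (hx.b1.symm.trans (k 1 2 0 g1)) a
      simp only [Pi.sub_apply, Pi.smul_apply, smul_eq_mul] at this
      linear_combination this)
  have h5 : x.2.1 0 = T *ᵥ (fun a => g a 0) + (X 0 ^ (N + 1) : P3) • w :=
    funext fun a => eq_add_of_sub_eq' (hw a 0)
  have h6 := hx.a 0
  rw [h5, mulVec_add, mulVec_mulVec, ← hT.eq, ← transpose_mul, hS, transpose_zero, zero_mulVec,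
    zero_add, mulVec_smul] at h6
  refine ⟨w, funext fun j => mul_left_cancel₀ (y_ne N 0) ?_⟩
  simpa only [Pi.smul_apply, smul_eq_mul] using (congrFun h6 j).symm

/-- powers of the variables kill the cokernel of the transpose of a fibrewise injective matrix -/
theorem exists_left [DecidableEq ι] [DecidableEq κ] (h : ∀ p : Fin 3 → ℂ, p ≠ 0 →
    Function.Injective (S.map (eval p)).mulVec) :
    ∃ n : ℕ, ∀ i : Fin 3, ∃ Z : Matrix κ ι P3, Z * S = (X i ^ (n + 1) : P3) • (1 : Matrix κ κ P3) := by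
  let I : Ideal P3 :=
    { carrier := {a | ∃ Z : Matrix κ ι P3, Z * S = a • (1 : Matrix κ κ P3)}
      add_mem' := fun ⟨Z, hZ⟩ ⟨Z', hZ'⟩ => ⟨Z + Z', by rw [Matrix.add_mul, hZ, hZ', add_smul]⟩
      zero_mem' := ⟨0, by rw [Matrix.zero_mul, zero_smul]⟩
      smul_mem' := fun c _ ⟨Z, hZ⟩ => ⟨c • Z, by rw [Matrix.smul_mul, hZ, smul_smul, smul_eq_mul]⟩ }
  have h1 (i : Fin 3) : (X i : P3) ∈ I.radical := by
    rw [← vanishingIdeal_zeroLocus_eq_radical (K := ℂ), mem_vanishingIdeal_iff]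
    intro p hp
    by_contra h2
    obtain ⟨L, hL⟩ := (toLin' (S.map (eval p))).exists_leftInverse_of_injective
      (LinearMap.ker_eq_bot.2 (h p fun h0 => h2 (by simp [h0])))
    have h3 : (LinearMap.toMatrix' L * S.map (eval p)) = 1 := by
      rw [← LinearMap.toMatrix'_toLin' (S.map (eval p)), ← LinearMap.toMatrix'_comp, hL,
        LinearMap.toMatrix'_id]
    obtain ⟨R, hR⟩ : ∃ R : Matrix κ ι P3, R.map (eval p) = LinearMap.toMatrix' L :=
      ⟨(LinearMap.toMatrix' L).map C, Matrix.ext fun a b => eval_C _⟩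
    have h5 : (R * S).adjugate * (R * S) = (R * S).det • (1 : Matrix κ κ P3) := adjugate_mul _
    rw [← Matrix.mul_assoc] at h5
    have h4 : eval p (R * S).det = 0 := hp (R * S).det ⟨_, h5⟩
    rw [RingHom.map_det, RingHom.mapMatrix_apply, Matrix.map_mul, hR, h3, det_one] at h4
    exact one_ne_zero h4
  choose n hn using h1
  refine ⟨∑ i, n i, fun i => Ideal.pow_mem_of_pow_mem I (hn i) ?_⟩
  exact (Finset.single_le_sum (fun _ _ => Nat.zero_le _) (Finset.mem_univ i)).trans (Nat.le_succ _)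

end Vale.Agent.P287Z.V
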