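import Vale.Agent.P287.Theta.IsoFinal

/-!
# Divisors of bidegree `(2, 2)`: the second discriminant is not a square
-/

namespace Vale.Agent.P287Z.V

open MvPolynomial Matrix Vale.Agent.P287 Vale.Agent.P287.Theta

/-- the value of the bilinear form of `A` on two constant vectors -/
noncomputable def bf (A : Matrix (Fin 3) (Fin 3) P3) (u v : Fin 3 → ℂ) : P3 :=
  (fun i => C (u i)) ⬝ᵥ A *ᵥ fun i => C (v i)

theorem eval_bf (A : Matrix (Fin 3) (Fin 3) P3) (u v p : Fin 3 → ℂ) :
    eval p (bf A u v) = u ⬝ᵥ (A.map (eval p)) *ᵥ v := by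
  simp [bf, dotProduct, mulVec, map_sum]

theorem bf_comm {A : Matrix (Fin 3) (Fin 3) P3} (hA : A.IsSymm) (u v : Fin 3 → ℂ) :
    bf A u v = bf A v u := by
  rw [bf, bf, dotProduct_mulVec, ← mulVec_transpose, hA.eq, dotProduct_comm]

theorem gram {A : Matrix (Fin 3) (Fin 3) P3} (hA : A.IsSymm) (k x n : Fin 3 → ℂ) :
    C ((Matrix.of ![k, x, n]).det ^ 2) * A.det =
      bf A k k * (bf A x x * bf A n n - bf A x n ^ 2) - bf A k x * (bf A k x * bf A n n)
        + bf A k x * (bf A k n * (2 * bf A x n)) - bf A k n * (bf A k n * bf A x x) := by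
  set P : Matrix (Fin 3) (Fin 3) P3 := (Matrix.of ![k, x, n]).map C with hP
  have h1 : ∀ i j, (P * A * Pᵀ) i j = bf A (![k, x, n] i) (![k, x, n] j) := fun i j => by
    rw [Matrix.mul_assoc, Matrix.mul_apply]
    rfl
  have h2 : (P * A * Pᵀ).det = C ((Matrix.of ![k, x, n]).det ^ 2) * A.det := by
    rw [det_mul, det_mul, det_transpose, hP, ← RingHom.mapMatrix_apply, ← RingHom.map_det, map_pow]
    ring
  rw [← h2, det_fin_three]
  simp only [h1, cons_val_zero, cons_val_one, cons_val_two, tail_cons, head_cons]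
  rw [bf_comm hA x k, bf_comm hA n k, bf_comm hA n x]
  ring

theorem gram_deriv {A : Matrix (Fin 3) (Fin 3) P3} (hA : A.IsSymm) {p k : Fin 3 → ℂ}
    (hk : (A.map (eval p)) *ᵥ k = 0) (x n : Fin 3 → ℂ) (i : Fin 3) :
    (Matrix.of ![k, x, n]).det ^ 2 * eval p (pderiv i A.det) =
      eval p (pderiv i (bf A k k)) * eval p (bf A x x * bf A n n - bf A x n ^ 2) := by
  have h0 : ∀ y, eval p (bf A k y) = 0 := fun y => by
    rw [bf_comm hA, eval_bf, hk, dotProduct_zero]
  have h := congrArg (fun f => eval p (pderiv i f)) (gram hA k x n)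
  simp only [Derivation.leibniz, smul_eq_mul, map_add, map_sub, map_mul, h0, pderiv_C,
    eval_C, zero_mul, mul_zero, add_zero, sub_zero, zero_add] at h
  rw [h, mul_comm]
  simp only [map_sub, map_mul]

/-- `φ` and `T` are the two matrices of a form of bidegree `(2, 2)` -/
structure Dual (φ T : Matrix (Fin 3) (Fin 3) P3) : Prop where
  s1 : φ.IsSymm
  s2 : T.IsSymm
  e1 : ∀ k, bf T k k = ∑ i, ∑ j, C (eval k (φ i j)) * (X i * X j)
  e2 : ∀ k, bf φ k k = ∑ i, ∑ j, C (eval k (T i j)) * (X i * X j)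

theorem Dual.symm {φ T : Matrix (Fin 3) (Fin 3) P3} (h : Dual φ T) : Dual T φ :=
  ⟨h.s2, h.s1, h.e2, h.e1⟩

theorem Dual.deriv {φ T : Matrix (Fin 3) (Fin 3) P3} (h : Dual φ T) (k z : Fin 3 → ℂ) (i : Fin 3) :
    eval z (pderiv i (bf T k k)) = 2 * ((φ.map (eval k)) *ᵥ z) i := by
  have hs : ∀ a b, φ b a = φ a b := fun a b => h.s1.apply a b
  rw [h.e1]
  fin_cases i <;>
    simp [Fin.sum_univ_three, mulVec, dotProduct, Derivation.leibniz, pderiv_X,
      hs 0 1, hs 0 2, hs 1 2] <;> ring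

theorem exists_basis {z : Fin 3 → ℂ} (hz : z ≠ 0) :
    ∃ e e' : Fin 3 → ℂ, (Matrix.of ![z, e, e']).det ≠ 0 := by
  obtain ⟨i, hi⟩ := Function.ne_iff.1 hz
  fin_cases i
  · exact ⟨![0, 1, 0], ![0, 0, 1], by simpa [det_fin_three] using hi⟩
  · exact ⟨![0, 0, 1], ![1, 0, 0], by simpa [det_fin_three] using hi⟩
  · exact ⟨![1, 0, 0], ![0, 1, 0], by simpa [det_fin_three] using hi⟩

/-- the divisor of bidegree `(2, 2)` is smooth -/
theorem Dual.smooth {φ T : Matrix (Fin 3) (Fin 3) P3} (h : Dual φ T) (hs : SmoothP φ.det)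
    {x z : Fin 3 → ℂ} (hz : z ≠ 0) (h1 : (φ.map (eval x)) *ᵥ z = 0)
    (h2 : (T.map (eval z)) *ᵥ x = 0) : x = 0 := by
  obtain ⟨e, e', he⟩ := exists_basis hz
  refine hs x fun i => ?_
  have := gram_deriv h.s1 h1 e e' i
  rw [h.symm.deriv, h2, Pi.zero_apply, mul_zero, zero_mul] at this
  exact (mul_eq_zero.1 this).resolve_left (pow_ne_zero 2 he)

theorem exists_pt {π : P3} (hπ : Prime π) : ∃ z : Fin 3 → ℂ, z ≠ 0 ∧ eval z π = 0 := by
  by_contra hcon
  push Not at hcon
  have key : ∀ i : Fin 3, π ∣ X i := fun i => by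
    have h1 : (X i : P3) ∈ vanishingIdeal ℂ (zeroLocus ℂ (Ideal.span {π})) := by
      rw [mem_vanishingIdeal_iff]
      intro x hx
      have h2 : aeval x π = 0 := hx π (Ideal.subset_span rfl)
      by_contra h3
      refine hcon x (fun h4 => h3 ?_) (by rw [H925.eval_eq_aeval]; exact h2)
      rw [h4]
      simp
    rw [vanishingIdeal_zeroLocus_eq_radical,
      ((Ideal.span_singleton_prime hπ.ne_zero).2 hπ).radical] at h1
    exact Ideal.mem_span_singleton.1 h1
  have h1 := (hπ.irreducible.associated_of_dvd (X_prime (i := (0 : Fin 3))).irreducible (key 0))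
  have h2 : (X 0 : P3) ∣ X 1 := h1.symm.dvd.trans (key 1)
  rw [X_dvd_X] at h2
  exact absurd h2 (by decide)

theorem dvd_of_vanish {π g : P3} (hπ : Prime π) (h : ∀ z, eval z π = 0 → eval z g = 0) : π ∣ g := by
  have h1 : g ∈ vanishingIdeal ℂ (zeroLocus ℂ (Ideal.span {π})) := by
    rw [mem_vanishingIdeal_iff]
    intro x hx
    have h2 : aeval x π = 0 := hx π (Ideal.subset_span rfl)
    rw [← H925.eval_eq_aeval] at h2 ⊢
    exact h x h2
  rw [vanishingIdeal_zeroLocus_eq_radical,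
    ((Ideal.span_singleton_prime hπ.ne_zero).2 hπ).radical] at h1
  exact Ideal.mem_span_singleton.1 h1

theorem exists_tangent (a : Fin 3 → ℂ) {z : Fin 3 → ℂ} (hz : z ≠ 0) :
    ∃ (τ : Fin 3 → ℂ) (l : Fin 3), τ ⬝ᵥ a = 0 ∧
      ∀ Q : Fin 3 → ℂ, Q l = 0 → z ⬝ᵥ Q = 0 → τ ⬝ᵥ Q = 0 → Q = 0 := by
  obtain ⟨i, hi⟩ := Function.ne_iff.1 hz
  obtain ⟨τ, h0, h1⟩ := exists_common_zero (k := ℂ) (by norm_num : 2 < 3)
    ![X i, ∑ j, X j * C (a j)] (fun r => by fin_cases r <;> simp)
  have h2 : τ i = 0 := by simpa using h1 0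
  have h3 : τ ⬝ᵥ a = 0 := by simpa [dotProduct] using h1 1
  obtain ⟨j, hj⟩ := Function.ne_iff.1 h0
  have hij : i ≠ j := by
    rintro rfl
    exact hj h2
  obtain ⟨l, hl⟩ : ∃ l : Fin 3, ∀ f : Fin 3 → ℂ, ∑ r, f r = f i + f j + f l ∧
      (f i = 0 → f j = 0 → f l = 0 → f = 0) := by
    revert hij
    fin_cases i <;> fin_cases j <;> intro hij
    all_goals first | exact absurd rfl hij | skip
    · exact ⟨2, fun f => ⟨by simp [Fin.sum_univ_three], fun a b c => by
        funext r; fin_cases r <;> assumption⟩⟩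
    · exact ⟨1, fun f => ⟨by simp [Fin.sum_univ_three]; ring, fun a b c => by
        funext r; fin_cases r <;> assumption⟩⟩
    · exact ⟨2, fun f => ⟨by simp [Fin.sum_univ_three]; ring, fun a b c => by
        funext r; fin_cases r <;> assumption⟩⟩
    · exact ⟨0, fun f => ⟨by simp [Fin.sum_univ_three]; ring, fun a b c => by
        funext r; fin_cases r <;> assumption⟩⟩
    · exact ⟨1, fun f => ⟨by simp [Fin.sum_univ_three]; ring, fun a b c => by
        funext r; fin_cases r <;> assumption⟩⟩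
    · exact ⟨0, fun f => ⟨by simp [Fin.sum_univ_three]; ring, fun a b c => by
        funext r; fin_cases r <;> assumption⟩⟩
  refine ⟨τ, l, h3, fun Q k1 k2 k3 => ?_⟩
  rw [dotProduct, (hl _).1] at k2 k3
  rw [h2, k1, zero_mul, mul_zero, zero_add, add_zero] at k3
  have k4 : Q j = 0 := (mul_eq_zero.1 k3).resolve_left hj
  rw [k1, k4, mul_zero, mul_zero, add_zero, add_zero] at k2
  exact (hl Q).2 ((mul_eq_zero.1 k2).resolve_left hi) k4 k1

theorem Dual.dot {φ T : Matrix (Fin 3) (Fin 3) P3} (h : Dual φ T) (x z : Fin 3 → ℂ) :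
    z ⬝ᵥ (φ.map (eval x)) *ᵥ z = x ⬝ᵥ (T.map (eval z)) *ᵥ x := by
  rw [← eval_bf T, h.e1]
  simp only [map_sum, map_mul, eval_C, eval_X, dotProduct, mulVec, map_apply, Finset.mul_sum]
  exact Finset.sum_congr rfl fun i _ => Finset.sum_congr rfl fun j _ => by ring

/-- the polynomial `x ↦ (φ(x) z)_l` -/
theorem aeval_row (φ : Matrix (Fin 3) (Fin 3) P3) (z x : Fin 3 → ℂ) (l : Fin 3) :
    aeval x (∑ j, φ l j * C (z j)) = ((φ.map (eval x)) *ᵥ z) l := by
  simp [mulVec, dotProduct, aeval_eq_eval]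

theorem Dual.not_sq {φ T : Matrix (Fin 3) (Fin 3) P3} (h : Dual φ T) (hs : SmoothP φ.det)
    (h0 : ∀ i j, eval 0 (φ i j) = 0) (h0' : ∀ i j, eval 0 (T i j) = 0) {π : P3} (hπ : Prime π) :
    ¬ π ^ 2 ∣ T.det := by
  rintro ⟨g, hg⟩
  -- the minors vanish on the curve
  have hμ : ∀ x n, π ∣ bf T x x * bf T n n - bf T x n ^ 2 := fun x n => by
    refine dvd_of_vanish hπ fun z hz => ?_
    by_cases hz0 : z = 0
    · have : T.map (eval z) = 0 := by
        ext i j
        rw [hz0]
        exact h0' i j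
      simp [eval_bf, this]
    have hd : (T.map (eval z)).det = 0 := by
      rw [← RingHom.mapMatrix_apply, ← RingHom.map_det, hg]
      simp [hz]
    obtain ⟨k, hk0, hk⟩ := exists_mulVec_eq_zero_iff.2 hd
    by_contra hne
    refine hk0 (h.smooth hs hz0 (funext fun i => ?_) hk)
    have := gram_deriv h.s2 hk x n i
    rw [hg, h.deriv] at this
    simp only [pow_two, Derivation.leibniz, smul_eq_mul, map_add, map_mul, hz, zero_mul,
      mul_zero, add_zero] at this
    rw [← pow_two (bf T x n)] at this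
    have h2 := (mul_eq_zero.1 this.symm).resolve_right hne
    exact (mul_eq_zero.1 h2).resolve_left two_ne_zero
  obtain ⟨z, hz0, hz⟩ := exists_pt hπ
  have hrow : ∀ l, aeval (0 : Fin 3 → ℂ) (∑ j, φ l j * C (z j)) = 0 := fun l => by
    rw [aeval_row]
    simp only [mulVec, dotProduct, map_apply, h0, zero_mul, Finset.sum_const_zero]
  obtain ⟨τ, l, hτ, hl⟩ := exists_tangent (fun i => eval z (pderiv i π)) hz0
  have hsym : ∀ u v, u ⬝ᵥ (T.map (eval z)) *ᵥ v = v ⬝ᵥ (T.map (eval z)) *ᵥ u := fun u v => by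
    rw [← eval_bf, ← eval_bf, bf_comm h.s2]
  by_cases hn : ∀ n, n ⬝ᵥ (T.map (eval z)) *ᵥ n = 0
  · have hT : ∀ x, (T.map (eval z)) *ᵥ x = 0 := fun x => funext fun i => by
      have h1 := hn (Pi.single i 1 + x)
      rw [mulVec_add, add_dotProduct, dotProduct_add, dotProduct_add, hn, hn, hsym x,
        single_one_dotProduct] at h1
      rw [Pi.zero_apply]
      linear_combination h1 / 2
    obtain ⟨x, hx0, hx⟩ := exists_common_zero (k := ℂ) (by norm_num : 2 < 3)
      ![∑ j, φ l j * C (z j), ∑ i, C (τ i) * ∑ j, φ i j * C (z j)] (fun r => by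
        fin_cases r
        · exact hrow l
        · simp only [Fin.mk_one, cons_val_one, cons_val_zero, map_sum, map_mul, hrow, mul_zero,
            Finset.sum_const_zero])
    refine hx0 (h.smooth hs hz0 (hl _ ?_ ?_ ?_) (hT x))
    · rw [← aeval_row]
      exact hx 0
    · rw [h.dot, hn]
    · have := hx 1
      simp only [cons_val_one, cons_val_zero] at this
      rw [map_sum] at this
      simpa only [map_mul, aeval_row, aeval_C, Algebra.algebraMap_self, RingHom.id_apply,
        dotProduct] using this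
  · push Not at hn
    obtain ⟨n, hn⟩ := hn
    obtain ⟨x, hx0, hx⟩ := exists_common_zero (k := ℂ) (by norm_num : 2 < 3)
      ![∑ j, φ l j * C (z j), ∑ i, X i * C (((T.map (eval z)) *ᵥ n) i)] (fun r => by
        fin_cases r
        · exact hrow l
        · simp)
    have k1 : x ⬝ᵥ (T.map (eval z)) *ᵥ n = 0 := by simpa [dotProduct] using hx 1
    have k2 : ∀ y, y ⬝ᵥ (T.map (eval z)) *ᵥ y * (n ⬝ᵥ (T.map (eval z)) *ᵥ n) =
        (y ⬝ᵥ (T.map (eval z)) *ᵥ n) ^ 2 := fun y => by
      obtain ⟨c, hc⟩ := hμ y n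
      have := congrArg (eval z) hc
      simp only [map_sub, map_mul, map_pow, eval_bf, hz, zero_mul] at this
      exact sub_eq_zero.1 this
    have k3 : x ⬝ᵥ (T.map (eval z)) *ᵥ x = 0 := by
      have := k2 x
      rw [k1, zero_pow two_ne_zero] at this
      exact (mul_eq_zero.1 this).resolve_right hn
    have k4 : (T.map (eval z)) *ᵥ x = 0 := funext fun i => by
      have h1 := k2 (Pi.single i 1 + x)
      have h2 := k2 (Pi.single i 1)
      rw [mulVec_add, add_dotProduct, dotProduct_add, dotProduct_add, add_dotProduct, k1, k3,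
        hsym x, single_one_dotProduct i ((T.map (eval z)) *ᵥ x)] at h1
      refine mul_left_cancel₀ hn ?_
      rw [Pi.zero_apply]
      linear_combination (h1 - h2) / 2
    refine hx0 (h.smooth hs hz0 (hl _ ?_ ?_ ?_) k4)
    · rw [← aeval_row]
      exact hx 0
    · rw [h.dot, k3]
    · obtain ⟨c, hc⟩ := hμ x n
      have k5 : ∀ i, 2 * ((φ.map (eval x)) *ᵥ z) i * (n ⬝ᵥ (T.map (eval z)) *ᵥ n) =
          eval z c * eval z (pderiv i π) := fun i => by
        have := congrArg (fun f => eval z (pderiv i f)) hc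
        simp only [pow_two, Derivation.leibniz, smul_eq_mul, map_add, map_sub, map_mul, hz,
          zero_mul, eval_bf, k1, k3, h.deriv, add_zero, zero_add, sub_zero] at this
        linear_combination this
      refine mul_left_cancel₀ (mul_ne_zero two_ne_zero hn) ?_
      have k6 : ∑ i, τ i * (eval z c * eval z (pderiv i π)) = 0 := by
        rw [dotProduct] at hτ
        simp only [mul_left_comm (τ _), ← Finset.mul_sum, hτ, mul_zero]
      rw [mul_zero, ← k6, dotProduct.eq_1 τ, Finset.mul_sum]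
      exact Finset.sum_congr rfl fun i _ => by rw [← k5]; ring

end Vale.Agent.P287Z.V
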