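import Vale.Agent.P287Z.V.Vr1
import Mathlib.RingTheory.MvPolynomial.EulerIdentity

/-!
# The second matrix of a form of bidegree `(2, 2)`
-/

namespace Vale.Agent.P287Z.V

open MvPolynomial Matrix Vale.Agent.P287 Vale.Agent.P287.Theta

/-- half the Hessian of a quadratic form -/
noncomputable def hc (p : P3) (a b : Fin 3) : ℂ := coeff 0 (pderiv a (pderiv b p)) / 2

theorem pderiv_comm' (p : P3) (a b : Fin 3) : pderiv a (pderiv b p) = pderiv b (pderiv a p) := by
  induction p using MvPolynomial.induction_on with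
  | C c => simp
  | add p q hp hq => simp [hp, hq]
  | mul_X p i hp =>
    have k (a b : Fin 3) : pderiv a (pderiv b (X i : P3)) = 0 := by
      rw [pderiv_X, Pi.single_apply]
      split_ifs <;> simp
    simp only [Derivation.leibniz, smul_eq_mul, map_add, hp, k]
    ring

theorem hc_comm (p : P3) (a b : Fin 3) : hc p a b = hc p b a := by
  rw [hc, hc, pderiv_comm']

theorem eq_hc {p : P3} (hp : p.IsHomogeneous 2) : p = ∑ a, ∑ b, C (hc p a b) * (X a * X b) := by
  have h1 := hp.sum_X_mul_pderiv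
  have h2 : ∀ b, ∑ a, X a * pderiv a (pderiv b p) = pderiv b p := fun b => by
    have := (hp.pderiv (i := b)).sum_X_mul_pderiv
    simpa using this
  have h3 : ∀ a b, pderiv a (pderiv b p) = C (2 * hc p a b) := fun a b => by
    have h4 : (pderiv a (pderiv b p)).IsHomogeneous 0 := (hp.pderiv (i := b)).pderiv (i := a)
    rw [hc, mul_div_cancel₀ _ two_ne_zero]
    exact totalDegree_eq_zero_iff_eq_C.1 (Nat.le_zero.1 h4.totalDegree_le)
  refine mul_left_cancel₀ (a := (2 : P3)) (by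
    rw [show (2 : P3) = C 2 from rfl]
    exact C_ne_zero.2 two_ne_zero) ?_
  rw [nsmul_eq_mul, Nat.cast_ofNat] at h1
  rw [← h1, Finset.sum_comm, Finset.mul_sum]
  refine Finset.sum_congr rfl fun b _ => ?_
  rw [← h2 b, Finset.mul_sum, Finset.mul_sum]
  refine Finset.sum_congr rfl fun a _ => ?_
  rw [h3, map_mul, show (C 2 : P3) = 2 from rfl]
  ring

theorem aeval_hc {p : P3} (hp : p.IsHomogeneous 2) {A : Type*} [CommRing A] [Algebra ℂ A]
    (x : Fin 3 → A) : aeval x p = ∑ a, ∑ b, algebraMap ℂ A (hc p a b) * (x a * x b) := by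
  conv_lhs => rw [eq_hc hp]
  simp [map_sum]

/-- the second matrix: `zᵀ φ(x) z = xᵀ (Tm φ)(z) x` -/
noncomputable def Tm (φ : Matrix (Fin 3) (Fin 3) P3) : Matrix (Fin 3) (Fin 3) P3 :=
  fun a b => ∑ i, ∑ j, C (hc (φ i j) a b) * (X i * X j)

variable {φ : Matrix (Fin 3) (Fin 3) P3}

theorem Tm_symm : (Tm φ).IsSymm := by
  ext1 a b
  simp only [transpose_apply, Tm, hc_comm _ a b]

theorem Tm_hom (a b : Fin 3) : (Tm φ a b).IsHomogeneous 2 :=
  IsHomogeneous.sum _ _ _ fun i _ => IsHomogeneous.sum _ _ _ fun j _ =>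
    ((isHomogeneous_X ℂ i).mul (isHomogeneous_X ℂ j)).C_mul _

theorem Tm_rel (h : ∀ i j, (φ i j).IsHomogeneous 2) {A : Type*} [CommRing A] [Algebra ℂ A]
    (x z : Fin 3 → A) : z ⬝ᵥ (φ.map (aeval x)) *ᵥ z = x ⬝ᵥ ((Tm φ).map (aeval z)) *ᵥ x := by
  simp only [dotProduct, mulVec, map_apply, Tm, map_sum, map_mul, aeval_X, aeval_C,
    aeval_hc (h _ _) x]
  simp only [Fin.sum_univ_three]
  ring

theorem sum_eq_dot (B : Matrix (Fin 3) (Fin 3) P3) (k : Fin 3 → ℂ) :
    ∑ i, ∑ j, C (eval k (B i j)) * (X i * X j) =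
      (X : Fin 3 → P3) ⬝ᵥ (B.map (aeval fun i => (C (k i) : P3))) *ᵥ X := by
  have h1 : ∀ p : P3, aeval (fun i => (C (k i) : P3)) p = C (eval k p) := fun p => by
    induction p using MvPolynomial.induction_on with
    | C c => simp
    | add p q hp hq => rw [map_add, map_add, map_add, hp, hq]
    | mul_X p i hp => rw [map_mul, map_mul, map_mul, hp, aeval_X, eval_X]
  simp only [dotProduct, mulVec, map_apply, h1, Finset.mul_sum]
  exact Finset.sum_congr rfl fun i _ => Finset.sum_congr rfl fun j _ => by ring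

theorem map_X (B : Matrix (Fin 3) (Fin 3) P3) : B.map (aeval (X : Fin 3 → P3)) = B := by
  ext1 i j
  simp

theorem dual_Tm (hs : φ.IsSymm) (h : ∀ i j, (φ i j).IsHomogeneous 2) : Dual φ (Tm φ) where
  s1 := hs
  s2 := Tm_symm
  e1 k := by rw [sum_eq_dot, Tm_rel h, map_X, bf]
  e2 k := by rw [sum_eq_dot, ← Tm_rel h, map_X, bf]

theorem eval_zero_of_hom {p : P3} (hp : p.IsHomogeneous 2) : eval 0 p = 0 := by
  rw [H925.eval_eq_aeval, aeval_hc hp]
  simp

theorem aeval_tvec (p : P3) :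
    aeval tvec p = algebraMap (MvPolynomial (Fin 2) ℂ) RatK (H925.dehom p) := by
  induction p using MvPolynomial.induction_on with
  | C c => simp [H925.dehom, IsScalarTower.algebraMap_apply ℂ (MvPolynomial (Fin 2) ℂ) RatK]
  | add p q hp hq => simp [hp, hq]
  | mul_X p i hp =>
    rw [map_mul, map_mul, map_mul, hp]
    congr 1
    rw [aeval_X, H925.dehom, aeval_X]
    fin_cases i
    · exact (map_one _).symm
    · rfl
    · rfl

theorem sq_of_sq {f : P3} (hd : f.IsHomogeneous 6) (h : IsSquare (aeval tvec f)) :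
    ∃ g, f = g ^ 2 := by
  obtain ⟨r, hr⟩ := h
  obtain ⟨a, b, hb, rfl⟩ := IsFractionRing.div_surjective (A := MvPolynomial (Fin 2) ℂ) r
  have hb0 : b ≠ 0 := nonZeroDivisors.ne_zero hb
  have hinj := IsFractionRing.injective (MvPolynomial (Fin 2) ℂ) RatK
  have hb1 : algebraMap (MvPolynomial (Fin 2) ℂ) RatK b ≠ 0 := (map_ne_zero_iff _ hinj).2 hb0
  have h2 : H925.dehom f * b ^ 2 = a ^ 2 := hinj (by
    rw [map_mul, ← aeval_tvec, hr, map_pow, map_pow, div_mul_div_comm, ← pow_two, ← pow_two,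
      div_mul_cancel₀ _ (pow_ne_zero 2 hb1)])
  obtain ⟨d, hd1⟩ := H925.exists_homogenisation a
  obtain ⟨e, he1⟩ := H925.exists_homogenisation b
  obtain ⟨A, hA, rfl⟩ := hd1 (d + e + 3) (by omega)
  obtain ⟨B, hB, rfl⟩ := he1 (d + e) (by omega)
  have h3 : f * B ^ 2 - A ^ 2 = 0 := by
    refine H925.dehom_inj (d := 2 * (d + e + 3)) (IsHomogeneous.sub ?_ ?_) (by
      rw [map_sub, map_mul, map_pow, map_pow, h2, sub_self])
    · have := hd.mul (hB.pow 2)
      rwa [show 6 + (d + e) * 2 = 2 * (d + e + 3) by ring] at this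
    · have := hA.pow 2
      rwa [mul_comm] at this
  have hB0 : B ≠ 0 := fun h0 => hb0 (by rw [h0, map_zero])
  have h4 : B ∣ A := (UniqueFactorizationMonoid.pow_dvd_pow_iff_dvd two_ne_zero).1
    ⟨f, by linear_combination -h3⟩
  obtain ⟨g, rfl⟩ := h4
  exact ⟨g, mul_right_cancel₀ (pow_ne_zero 2 hB0) (by linear_combination h3)⟩

/-- the discriminant of the second fibration is not a square -/
theorem Tm_not_sq (hs : φ.IsSymm) (h : ∀ i j, (φ i j).IsHomogeneous 2) (hsm : SmoothP φ.det) :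
    ¬ IsSquare ((Tm φ).map (aeval tvec : P3 →ₐ[ℂ] RatK)).det := by
  intro hr
  have key {π : P3} (hπ : Prime π) : ¬ π ^ 2 ∣ (Tm φ).det :=
    (dual_Tm hs h).not_sq hsm (fun i j => eval_zero_of_hom (h i j))
      (fun i j => eval_zero_of_hom (Tm_hom i j)) hπ
  have hd : (Tm φ).det.IsHomogeneous 6 := H925.det_hom (Tm φ) (fun _ => 2) fun k i => Tm_hom k i
  rw [← AlgHom.mapMatrix_apply, ← AlgHom.map_det] at hr
  obtain ⟨g, h5⟩ := sq_of_sq hd hr
  by_cases hg0 : g = 0
  · exact key (X_prime (i := (0 : Fin 3))) (by rw [h5, hg0]; simp)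
  have hgu : ¬ IsUnit g := fun hu => by
    have h6 : IsUnit (eval 0 (Tm φ).det) := by
      rw [h5]
      exact (hu.pow 2).map _
    have h7 := H925.aeval_scale hd (0 : ℂ) (0 : Fin 3 → ℂ)
    rw [zero_pow (by norm_num), zero_mul] at h7
    rw [H925.eval_eq_aeval, show (0 : Fin 3 → ℂ) = fun i => 0 * (0 : Fin 3 → ℂ) i from by
      funext i; simp, h7] at h6
    exact not_isUnit_zero h6
  obtain ⟨π, hπ, hπg⟩ := WfDvdMonoid.exists_irreducible_factor hgu hg0
  exact key hπ.prime (h5 ▸ pow_dvd_pow_of_dvd hπg 2)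

end Vale.Agent.P287Z.V
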