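import Vale.Agent.P287Z.V.Vr2

/-!
# The function field of the double cover of `ℙ² × ℙ²` branched along a divisor of bidegree `(2,2)`
-/

namespace Vale.Agent.P287Z.V

open MvPolynomial Matrix Vale.Agent.P287 Vale.Agent.P287.Theta

/-- the matrix of the form `A ⊥ ⟨1⟩` -/
def blk {R : Type*} [CommRing R] (A : Matrix (Fin 3) (Fin 3) R) : Matrix (Fin 4) (Fin 4) R :=
  !![A 0 0, A 0 1, A 0 2, 0; A 1 0, A 1 1, A 1 2, 0; A 2 0, A 2 1, A 2 2, 0; 0, 0, 0, 1]

theorem qf_blk {K A : Type*} [CommRing K] [CommRing A] [Algebra K A] (B : Matrix (Fin 3) (Fin 3) K)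
    (w : Fin 4 → A) : qf (blk B) w =
      ![w 0, w 1, w 2] ⬝ᵥ (B.map (algebraMap K A)) *ᵥ ![w 0, w 1, w 2] + w 3 ^ 2 := by
  simp [qf, blk, Fin.sum_univ_four, Fin.sum_univ_three, dotProduct, mulVec]
  ring

theorem nd_blk {K : Type*} [Field K] [CharZero K] {B : Matrix (Fin 3) (Fin 3) K} (hB : B.IsSymm)
    (hd : B.det ≠ 0) (v : Fin 4 → K) (h : ∀ w, pf (blk B) v w = 0) : v = 0 := by
  have hs : ∀ a b, B b a = B a b := fun a b => hB.apply a b
  have h0 := h (Pi.single 0 1)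
  have h1 := h (Pi.single 1 1)
  have h2 := h (Pi.single 2 1)
  have h3 := h (Pi.single 3 1)
  simp [pf, blk, Fin.sum_univ_four, hs 0 1, hs 0 2, hs 1 2] at h0 h1 h2 h3
  have h4 : B *ᵥ ![v 0, v 1, v 2] = 0 := by
    funext i
    fin_cases i <;> simp [mulVec, dotProduct, Fin.sum_univ_three, hs 0 1, hs 0 2, hs 1 2]
    · linear_combination h0 / 2
    · linear_combination h1 / 2
    · linear_combination h2 / 2
  have h5 := eq_zero_of_mulVec_eq_zero hd h4
  funext i
  fin_cases i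
  · exact congrFun h5 0
  · exact congrFun h5 1
  · exact congrFun h5 2
  · exact h3

theorem four_of {K E : Type} [Field K] [Field E] [Algebra ℂ K] [Algebra ℂ E] (ι : K →ₐ[ℂ] E)
    (t : Fin 3 → K) (q : Matrix (Fin 4) (Fin 4) K) (η : Fin 4 → E) (t0 : t 0 = 1)
    (hK : ∀ F : IntermediateField ℂ E, (∀ i, ι (t i) ∈ F) → ∀ c, ι c ∈ F)
    (hE : ∀ F : IntermediateField ℂ E, (∀ c, ι c ∈ F) → (∀ i, η i ∈ F) → F = ⊤)
    (nd : ∀ v : Fin 4 → K, (∀ w, pf q v w = 0) → v = 0) (η0 : η 0 = 1)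
    (LI : ∀ c : Fin 4 → K, ∑ i, ι (c i) * η i = 0 → c = 0)
    (hq : ∑ i, ∑ j, ι (q i j) * (η i * η j) = 0) (v : Fin 4 → K) (hv : v ≠ 0)
    (hqv : qf q v = 0) : FourGenerated E := by
  let _ := ι.toRingHom.toAlgebra
  have : IsScalarTower ℂ K E := IsScalarTower.of_algebraMap_eq fun c => (ι.commutes c).symm
  exact QuadricPoint.isotropic (K := K) (t := t) (q := q) (η := η) ⟨t0, hK, hE, nd, η0, LI, hq⟩
    v hv hqv

theorem aeval_dehom {k A : Type*} [CommRing k] [CommRing A] [Algebra k A] {n : ℕ}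
    (p : MvPolynomial (Fin (n + 1)) k) (a : Fin n → A) :
    aeval a (H925.dehom p) = aeval (Fin.cons 1 a : Fin (n + 1) → A) p := by
  rw [H925.dehom, ← AlgHom.comp_apply, comp_aeval]
  congr 2
  funext i
  refine Fin.cases ?_ (fun i => ?_) i <;> simp

section

variable {K : Type} [Field K] [CharZero K] {q P : Matrix (Fin 4) (Fin 4) K}
  {B : Matrix (Fin 3) (Fin 3) K} {l : K}

theorem sim_ext (h : ∀ u, qf (blk B) (P *ᵥ u) = l * qf q u) {A : Type*} [CommRing A] [Algebra K A]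
    (w : Fin 4 → A) : qf (blk B) (act P w) = algebraMap K A l * qf q w := by
  have := aeval_eq_zero_of_forall (qf (blk B) (act P X) - C l * qf q X : MvPolynomial (Fin 4) K)
    (fun u => by
      rw [map_sub, map_mul, map_qf, map_qf, map_act, aeval_C]
      simp only [aeval_X]
      rw [act_self, h]
      simp) w
  rw [map_sub, map_mul, map_qf, map_qf, map_act, aeval_C] at this
  simp only [aeval_X] at this
  exact sub_eq_zero.1 this

/-- the first coordinates of the generic point are algebraically independent -/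
theorem indep {E : Type} [Field E] [Algebra K E] {η : Fin 4 → E} (η0 : η 0 = 1)
    (hC : ∀ G : MvPolynomial (Fin 3) K, aeval (fun i : Fin 3 => η i.succ) G = 0 → fK q ∣ G)
    (hP : IsUnit P.det) (h : ∀ u, qf (blk B) (P *ᵥ u) = l * qf q u) (hl : l ≠ 0)
    (hB : B 0 0 ≠ 0) {n : ℕ} {R : MvPolynomial (Fin 3) K} (hR : R.IsHomogeneous n)
    (h0 : aeval ![act P η 0, act P η 1, act P η 2] R = 0) : R = 0 := by
  let Ω := AlgebraicClosure K
  have hG (A : Type) [CommRing A] [Algebra K A] (y : Fin 3 → A) :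
      aeval y (aeval ![act P (Fin.cons 1 X : Fin 4 → MvPolynomial (Fin 3) K) 0,
        act P (Fin.cons 1 X : Fin 4 → MvPolynomial (Fin 3) K) 1,
        act P (Fin.cons 1 X : Fin 4 → MvPolynomial (Fin 3) K) 2] R) =
      aeval ![act P (Fin.cons 1 y : Fin 4 → A) 0, act P (Fin.cons 1 y : Fin 4 → A) 1,
        act P (Fin.cons 1 y : Fin 4 → A) 2] R := by
    have h1 := map_act (aeval y : MvPolynomial (Fin 3) K →ₐ[K] A) P (Fin.cons 1 X)
    have h2 : (fun i => aeval y ((Fin.cons 1 X : Fin 4 → MvPolynomial (Fin 3) K) i)) =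
        (Fin.cons 1 y : Fin 4 → A) := funext fun i => by
      refine Fin.cases ?_ (fun i => ?_) i <;> simp
    rw [h2] at h1
    rw [← AlgHom.comp_apply, comp_aeval, ← h1]
    congr 2
    funext i
    fin_cases i <;> rfl
  have hη : (Fin.cons 1 fun i : Fin 3 => η i.succ : Fin 4 → E) = η := funext fun i => by
    refine Fin.cases η0.symm (fun i => rfl) i
  obtain ⟨G, hG1⟩ := hC _ (by rw [hG, hη, h0])
  have hinv : ∀ ζ : Fin 4 → Ω, act P (act P⁻¹ ζ) = ζ := fun ζ => by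
    rw [← act_mul, mul_nonsing_inv _ hP, act_one]
  have key (ζ : Fin 4 → Ω) (h1 : qf (blk B) ζ = 0) (h2 : act P⁻¹ ζ 0 ≠ 0) :
      aeval ![ζ 0, ζ 1, ζ 2] R = 0 := by
    set c := (act P⁻¹ ζ 0)⁻¹ with hc
    have h3 : (Fin.cons 1 fun i : Fin 3 => c * act P⁻¹ ζ i.succ : Fin 4 → Ω) = c • act P⁻¹ ζ :=
      funext fun i => by
        refine Fin.cases ?_ (fun i => rfl) i
        exact (inv_mul_cancel₀ h2).symm
    have h4 := congrArg (aeval fun i : Fin 3 => c * act P⁻¹ ζ i.succ) hG1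
    have h5 := sim_ext h (act P⁻¹ ζ)
    rw [hinv, h1] at h5
    have h6 := (mul_eq_zero.1 h5.symm).resolve_left ((map_ne_zero _).2 hl)
    rw [hG, map_mul, aeval_fK, h3, qf_smul, h6, mul_zero, zero_mul, act_smul, hinv] at h4
    have h7 := H925.aeval_scale hR c ![ζ 0, ζ 1, ζ 2]
    rw [show (fun i => c * (![ζ 0, ζ 1, ζ 2] : Fin 3 → Ω) i) =
      ![(c • ζ) 0, (c • ζ) 1, (c • ζ) 2] from funext fun i => by fin_cases i <;> rfl, h4] at h7
    exact (mul_eq_zero.1 h7.symm).resolve_left (pow_ne_zero _ (inv_ne_zero h2))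
  obtain ⟨H, hH0, hH⟩ : ∃ H : MvPolynomial (Fin 3) K, H ≠ 0 ∧ ∀ a : Fin 3 → Ω, aeval a H ≠ 0 →
      aeval a R = 0 := by
    have hrt (a : Fin 3 → Ω) : ∃ s : Ω, s ^ 2 = -(a ⬝ᵥ (B.map (algebraMap K Ω)) *ᵥ a) :=
      IsAlgClosed.exists_pow_nat_eq _ two_pos
    have ha (a : Fin 3 → Ω) : ![a 0, a 1, a 2] = a := funext fun i => by fin_cases i <;> rfl
    have hq (a : Fin 3 → Ω) (s : Ω) (hs : s ^ 2 = -(a ⬝ᵥ (B.map (algebraMap K Ω)) *ᵥ a)) :
        qf (blk B) ![a 0, a 1, a 2, s] = 0 := by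
      rw [qf_blk]
      simp only [cons_val_zero, cons_val_one, cons_val]
      rw [ha, hs, add_neg_cancel]
    by_cases hα : P⁻¹ 0 0 = 0 ∧ P⁻¹ 0 1 = 0 ∧ P⁻¹ 0 2 = 0
    · have h3 : P⁻¹ 0 3 ≠ 0 := fun h3 => by
        have := congrFun (congrFun (nonsing_inv_mul P hP) 0) 0
        simp [mul_apply, Fin.sum_univ_four, hα.1, hα.2.1, hα.2.2, h3] at this
      refine ⟨X ⬝ᵥ (B.map C) *ᵥ X, fun h4 => hB ?_, fun a h4 => ?_⟩
      · simpa [dotProduct, mulVec, Fin.sum_univ_three] using congrArg (eval ![1, 0, 0]) h4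
      · obtain ⟨s, hs⟩ := hrt a
        have h5 : s ≠ 0 := by
          rintro rfl
          refine h4 ?_
          rw [zero_pow two_ne_zero, eq_comm, neg_eq_zero] at hs
          simpa [dotProduct, mulVec, map_sum] using hs
        rw [← ha a]
        refine key ![a 0, a 1, a 2, s] (hq a s hs) ?_
        simpa [act, Fin.sum_univ_four, hα.1, hα.2.1, hα.2.2, h3] using h5
    · refine ⟨C (P⁻¹ 0 0) * X 0 + C (P⁻¹ 0 1) * X 1 + C (P⁻¹ 0 2) * X 2, fun h4 => hα ⟨?_, ?_, ?_⟩,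
        fun a h4 => ?_⟩
      · simpa using congrArg (eval ![1, 0, 0]) h4
      · simpa using congrArg (eval ![0, 1, 0]) h4
      · simpa using congrArg (eval ![0, 0, 1]) h4
      · obtain ⟨s, hs⟩ := hrt a
        rw [← ha a]
        by_contra h5
        have h6 := mt (key ![a 0, a 1, a 2, s] (hq a s hs)) h5
        have h7 := mt (key ![a 0, a 1, a 2, -s] (hq a (-s) (by rw [neg_sq, hs]))) h5
        simp only [act, Fin.sum_univ_four, cons_val_zero, cons_val_one, cons_val, ne_eq,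
          not_not] at h6 h7
        refine h4 (mul_left_cancel₀ (two_ne_zero (α := Ω)) ?_)
        simp only [map_add, map_mul, aeval_C, aeval_X]
        linear_combination h6 + h7
  have h8 : MvPolynomial.map (algebraMap K Ω) (R * H) = 0 := MvPolynomial.funext fun a => by
    rw [eval_map, ← aeval_def, map_mul, map_zero]
    by_cases h9 : aeval a H = 0
    · rw [h9, mul_zero]
    · rw [hH a h9, zero_mul]
  have h9 := map_injective (algebraMap K Ω) (algebraMap K Ω).injective (h8.trans (map_zero _).symm)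
  exact (mul_eq_zero.1 h9).resolve_right hH0

end

end Vale.Agent.P287Z.V
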