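import Vale.Agent.P287Z.V.Vr3

/-!
# The Verra case: the cubic is rational unless the second quadric fibration is anisotropic
-/

namespace Vale.Agent.P287Z.V

open MvPolynomial Matrix Vale.Agent.P287 Vale.Agent.P287.Theta Vale.Agent.P287.H925

theorem sum_blk {K A : Type*} [CommRing K] [CommRing A] (f : K →+* A) (B : Matrix (Fin 3) (Fin 3) K)
    (w : Fin 4 → A) : ∑ i, ∑ j, f (blk B i j) * (w i * w j) =
      ![w 0, w 1, w 2] ⬝ᵥ (B.map f) *ᵥ ![w 0, w 1, w 2] + w 3 ^ 2 := by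
  let _ := f.toAlgebra
  exact qf_blk B w

theorem aeval_mem {E : Type} [Field E] [Algebra ℂ E] (F : IntermediateField ℂ E) {n : ℕ}
    {z : Fin n → E} (hz : ∀ i, z i ∈ F) (p : MvPolynomial (Fin n) ℂ) : aeval z p ∈ F := by
  induction p using MvPolynomial.induction_on with
  | C c => simp
  | add p q hp hq => simpa using F.add_mem hp hq
  | mul_X p i hp => simpa using F.mul_mem hp (hz i)

theorem rank_one {T : Matrix (Fin 3) (Fin 3) ℂ} (hT : T.IsSymm) (p : Fin 4 → ℂ)
    (h : ∀ a b : ℂ, (p 0 + p 1 * a + p 2 * b) ^ 2 + p 3 ^ 2 * (![1, a, b] ⬝ᵥ T *ᵥ ![1, a, b]) = 0) :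
    p 3 ^ 6 * T.det = 0 ∧ (p 3 = 0 → p = 0) := by
  have hs : ∀ a b, T b a = T a b := fun a b => hT.apply a b
  have h1 := h 0 0
  have h2 := h 1 0
  have h3 := h (-1) 0
  have h4 := h 0 1
  have h5 := h 0 (-1)
  have h6 := h 1 1
  simp only [dotProduct, mulVec, Fin.sum_univ_three, cons_val_zero, cons_val_one, cons_val,
    hs 0 1, hs 0 2, hs 1 2] at h1 h2 h3 h4 h5 h6
  have k00 : p 3 ^ 2 * T 0 0 = -(p 0 * p 0) := by linear_combination h1
  have k11 : p 3 ^ 2 * T 1 1 = -(p 1 * p 1) := by linear_combination (h2 + h3) / 2 - h1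
  have k22 : p 3 ^ 2 * T 2 2 = -(p 2 * p 2) := by linear_combination (h4 + h5) / 2 - h1
  have k01 : p 3 ^ 2 * T 0 1 = -(p 0 * p 1) := by linear_combination (h2 - h3) / 4
  have k02 : p 3 ^ 2 * T 0 2 = -(p 0 * p 2) := by linear_combination (h4 - h5) / 4
  have k12 : p 3 ^ 2 * T 1 2 = -(p 1 * p 2) := by linear_combination (h6 + h1 - h2 - h4) / 2
  refine ⟨?_, fun h0 => ?_⟩
  · have : p 3 ^ 6 * T.det = (p 3 ^ 2 • T).det := by
      rw [det_smul, Fintype.card_fin]
      ring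
    rw [this, det_fin_three]
    simp only [Matrix.smul_apply, smul_eq_mul, hs 0 1, hs 0 2, hs 1 2, k00, k11, k22, k01, k02, k12]
    ring
  · rw [h0, zero_pow two_ne_zero, zero_mul, eq_comm, neg_eq_zero, mul_self_eq_zero] at k00 k11 k22
    funext i
    fin_cases i <;> assumption

variable {φ : Matrix (Fin 3) (Fin 3) P3}

theorem verra_four (h2 : ∀ i j, (φ i j).IsHomogeneous 2)
    (hd : ((Tm φ).map (aeval tvec : P3 →ₐ[ℂ] RatK)).det ≠ 0)
    {q P : Matrix (Fin 4) (Fin 4) RatK} {l : RatK} (hP : IsUnit P.det) (hl : l ≠ 0)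
    (h : ∀ u, qf (blk (φ.map (aeval tvec : P3 →ₐ[ℂ] RatK))) (P *ᵥ u) = l * qf q u)
    (hB : aeval tvec (φ 0 0) ≠ 0) {E : Type} [Field E] [Algebra ℂ E] [Algebra RatK E]
    [IsScalarTower ℂ RatK E] {η : Fin 4 → E} (H : QuadricPoint RatK E tvec q η)
    (hC : ∀ G : MvPolynomial (Fin 3) RatK, aeval (fun i : Fin 3 => η i.succ) G = 0 → fK q ∣ G)
    (v : Fin 4 → RatK) (hv : v ≠ 0)
    (hqv : qf (blk ((Tm φ).map (aeval tvec : P3 →ₐ[ℂ] RatK))) v = 0) : FourGenerated E := by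
  have hchar : CharZero RatK := charZero_of_injective_algebraMap (algebraMap ℂ RatK).injective
  have hinj := IsFractionRing.injective (MvPolynomial (Fin 2) ℂ) RatK
  have hI := fun {n : ℕ} {R : MvPolynomial (Fin 3) RatK} (hR : R.IsHomogeneous n) =>
    indep H.η0 hC hP h hl hB hR
  set ζ := act P η with hζ
  have hζ0 : ζ 0 ≠ 0 := fun h0 => X_ne_zero (0 : Fin 3) (hI (isHomogeneous_X RatK 0) (by simpa))
  set z : Fin 2 → E := ![(ζ 0)⁻¹ * ζ 1, (ζ 0)⁻¹ * ζ 2] with hz
  have hz1 : (Fin.cons 1 z : Fin 3 → E) = fun i => (ζ 0)⁻¹ * (![ζ 0, ζ 1, ζ 2] : Fin 3 → E) i := by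
    funext i
    fin_cases i
    · exact (inv_mul_cancel₀ hζ0).symm
    · rfl
    · rfl
  have IA (R : MvPolynomial (Fin 2) RatK) (hR : aeval z R = 0) : R = 0 := by
    obtain ⟨d, hd⟩ := exists_homogenisation R
    obtain ⟨R', h1, rfl⟩ := hd d le_rfl
    rw [aeval_dehom, hz1, aeval_scale h1] at hR
    rw [hI h1 ((mul_eq_zero.1 hR).resolve_left (pow_ne_zero _ (inv_ne_zero hζ0))), map_zero]
  have hzi : Function.Injective (aeval z : MvPolynomial (Fin 2) ℂ →ₐ[ℂ] E) :=
    (injective_iff_map_eq_zero _).2 fun p hp => map_injective (algebraMap ℂ RatK)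
      (algebraMap ℂ RatK).injective ((IA _ (by rwa [aeval_map_algebraMap])).trans (map_zero _).symm)
  let ι : RatK →ₐ[ℂ] E := IsFractionRing.liftAlgHom hzi
  have hι (p : MvPolynomial (Fin 2) ℂ) : ι (algebraMap _ RatK p) = aeval z p :=
    IsFractionRing.lift_algebraMap (g := (aeval z : MvPolynomial (Fin 2) ℂ →ₐ[ℂ] E).toRingHom) hzi p
  have hι' (p : P3) : ι (aeval tvec p) = aeval (Fin.cons 1 z : Fin 3 → E) p := by
    rw [aeval_tvec, hι, aeval_dehom]
  set s : Fin 3 → E := fun k => algebraMap RatK E (tvec k) with hs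
  have hs0 : s 0 = 1 := map_one _
  have hs1 (p : P3) : algebraMap RatK E (aeval tvec p) = aeval s p :=
    MvPolynomial.comp_aeval_apply tvec (IsScalarTower.toAlgHom ℂ RatK E) p
  set w : E := (ζ 0)⁻¹ * ζ 3 with hw
  have hΦ : s ⬝ᵥ ((Tm φ).map (aeval (Fin.cons 1 z : Fin 3 → E))) *ᵥ s + w ^ 2 = 0 := by
    have h1 := sim_ext h η
    rw [H.hq, mul_zero, qf_blk, ← hζ, Matrix.map_map] at h1
    have h3 : (algebraMap RatK E) ∘ (aeval tvec : P3 →ₐ[ℂ] RatK) = aeval s := funext hs1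
    rw [h3] at h1
    rw [← Tm_rel h2, hz1, hw, show (fun i => (ζ 0)⁻¹ * (![ζ 0, ζ 1, ζ 2] : Fin 3 → E) i) =
      (ζ 0)⁻¹ • ![ζ 0, ζ 1, ζ 2] from rfl, mulVec_smul, dotProduct_smul, smul_dotProduct,
      smul_eq_mul, smul_eq_mul]
    linear_combination (ζ 0)⁻¹ ^ 2 * h1
  have hs3 : ![s 0, s 1, s 2] = s := funext fun i => by fin_cases i <;> rfl
  refine four_of ι tvec _ ![s 0, s 1, s 2, w] rfl (fun F hF c => ?_) (fun F h1 h3 => ?_)
    (nd_blk (Tm_symm.map _) hd) hs0 (fun c hc => ?_) ?_ v hv hqv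
  · obtain ⟨a, b, -, rfl⟩ := IsFractionRing.div_surjective (A := MvPolynomial (Fin 2) ℂ) c
    have h1 : ∀ i, z i ∈ F := fun i => by
      have := hF i.succ
      rwa [show tvec i.succ = algebraMap _ RatK (X i : MvPolynomial (Fin 2) ℂ) from by
        fin_cases i <;> rfl, hι, aeval_X] at this
    rw [map_div₀, hι, hι]
    exact F.div_mem (aeval_mem F h1 a) (aeval_mem F h1 b)
  · have h4 := H.hK F fun i => by
      fin_cases i
      exacts [h3 0, h3 1, h3 2]
    have h5 : ∀ i, z i ∈ F := fun i => by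
      have := h1 (algebraMap _ RatK (X i : MvPolynomial (Fin 2) ℂ))
      rwa [hι, aeval_X] at this
    have h6 : ∀ i, ((ζ 0)⁻¹ • ζ) i ∈ F := fun i => by
      fin_cases i
      · exact (congrArg (· ∈ F) (inv_mul_cancel₀ hζ0)).mpr F.one_mem
      · exact h5 0
      · exact h5 1
      · exact h3 3
    refine H.eq_top F h4 (ζ 0)⁻¹ (inv_ne_zero hζ0) fun i => ?_
    have h7 : (ζ 0)⁻¹ • η = act P⁻¹ ((ζ 0)⁻¹ • ζ) := by
      rw [act_smul, hζ, ← act_mul, nonsing_inv_mul _ hP, act_one]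
    rw [show (ζ 0)⁻¹ * η i = ((ζ 0)⁻¹ • η) i from rfl, h7]
    exact F.sum_mem fun j _ => F.mul_mem (h4 _) (h6 j)
  · obtain ⟨d, hd'⟩ := IsLocalization.exist_integer_multiples_of_finite
      (nonZeroDivisors (MvPolynomial (Fin 2) ℂ)) c
    choose p hp using hd'
    have h1 : aeval z (p 0) + aeval z (p 1) * s 1 + aeval z (p 2) * s 2 + aeval z (p 3) * w = 0 := by
      simp only [← hι, hp, Algebra.smul_def, map_mul]
      simp only [Fin.sum_univ_four, cons_val_zero, cons_val_one, cons_val, hs0] at hc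
      linear_combination ι (algebraMap _ RatK d.1) * hc
    let m := (MvPolynomial.map (algebraMap ℂ RatK) : MvPolynomial (Fin 2) ℂ →+* _)
    have h3 := IA ((m (p 0) + m (p 1) * C (tvec 1) + m (p 2) * C (tvec 2)) ^ 2 + m (p 3) ^ 2 *
      ((fun i => C (tvec i)) ⬝ᵥ ((Tm φ).map fun f => m (dehom f)) *ᵥ fun i => C (tvec i))) (by
      simp only [m, map_add, map_mul, map_pow, aeval_map_algebraMap, aeval_C, dotProduct, mulVec,
        map_sum, map_apply, aeval_dehom]
      simp only [dotProduct, mulVec, map_apply] at hΦ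
      linear_combination aeval z (p 3) ^ 2 * hΦ +
        (aeval z (p 0) + aeval z (p 1) * s 1 + aeval z (p 2) * s 2 - aeval z (p 3) * w) * h1)
    have h4 (a : Fin 2 → ℂ) := rank_one (T := (Tm φ).map fun f => eval a (dehom f))
      (Tm_symm.map _) (fun i => eval a (p i)) fun x y => by
        have h5 := congrArg (aeval fun i => algebraMap ℂ RatK (a i)) h3
        have h6 (g : MvPolynomial (Fin 2) ℂ) : aeval (fun i => algebraMap ℂ RatK (a i)) (m g) =
            algebraMap ℂ RatK (eval a g) := by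
          rw [aeval_map_algebraMap, eval_eq_aeval]
          exact (MvPolynomial.comp_aeval_apply a (Algebra.ofId ℂ RatK) g).symm
        have h7 : ((C (eval a (p 0)) + C (eval a (p 1)) * X 0 + C (eval a (p 2)) * X 1) ^ 2 +
            C (eval a (p 3)) ^ 2 * (![1, X 0, X 1] ⬝ᵥ ((Tm φ).map fun f => C (eval a (dehom f))) *ᵥ
              ![1, X 0, X 1]) : MvPolynomial (Fin 2) ℂ) = 0 := hinj (by
          have k (t : ℂ) : algebraMap (MvPolynomial (Fin 2) ℂ) RatK (C t) = algebraMap ℂ RatK t :=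
            (IsScalarTower.algebraMap_apply ℂ (MvPolynomial (Fin 2) ℂ) RatK t).symm
          simp only [map_add, map_mul, map_pow, h6, aeval_C, dotProduct, mulVec, map_apply,
            Fin.sum_univ_three, map_zero, Algebra.algebraMap_self, RingHom.id_apply] at h5
          simp only [map_add, map_mul, map_pow, k, dotProduct, mulVec, map_apply,
            Fin.sum_univ_three, map_zero, cons_val_zero, cons_val_one, cons_val, map_one]
          exact h5)
        simpa [dotProduct, mulVec, Fin.sum_univ_three] using congrArg (eval ![x, y]) h7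
    have h5 : p 3 ^ 6 * dehom (Tm φ).det = 0 := MvPolynomial.funext fun a => by
      rw [map_mul, map_pow, map_zero, ← (h4 a).1]
      congr 1
      exact ((eval a).comp (dehom : P3 →ₐ[ℂ] _).toRingHom).map_det _
    have h6 : p 3 = 0 := pow_eq_zero_iff (by norm_num) |>.1 ((mul_eq_zero.1 h5).resolve_right
      fun h0 => hd (by rw [← AlgHom.mapMatrix_apply, ← AlgHom.map_det, aeval_tvec, h0, map_zero]))
    funext i
    have h7 : p i = 0 := MvPolynomial.funext fun a =>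
      congrFun ((h4 a).2 (by rw [h6, map_zero])) i
    have h8 := hp i
    rw [h7, map_zero, Algebra.smul_def, eq_comm, mul_eq_zero] at h8
    exact h8.resolve_left ((map_ne_zero_iff _ hinj).2 (nonZeroDivisors.ne_zero d.2))
  · have h1 := sum_blk ι.toRingHom ((Tm φ).map (aeval tvec : P3 →ₐ[ℂ] RatK)) ![s 0, s 1, s 2, w]
    refine h1.trans ?_
    rw [← hΦ, Matrix.map_map, show (ι.toRingHom ∘ (aeval tvec : P3 →ₐ[ℂ] RatK)) =
      aeval (Fin.cons 1 z : Fin 3 → E) from funext hι']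
    simp only [cons_val_zero, cons_val_one, cons_val]
    rw [hs3]

theorem reduce (M : Matrix (Fin 4) (Fin 4) P3)
    (hdeg : ∀ i j, (M i j).IsHomogeneous (1 + wt i + wt j)) :
    ∃ B, cubicOf M = cubic B ∧ ∀ v, qM M v = qf (qmat B) v := by
  have hchar : CharZero RatK := charZero_of_injective_algebraMap (algebraMap ℂ RatK).injective
  have hq (w) : aeval (wvec tvec w) (cubicOf M) = w 0 * qM M w := by
    rw [qM_apply, aeval_wvec_cubicOf M hdeg]
  obtain ⟨B, hB⟩ := exists_cubic _ (cubicOf_homogeneous M hdeg) (by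
    intro y
    have h1 := hq ![0, algebraMap ℂ RatK (y 0), algebraMap ℂ RatK (y 1), algebraMap ℂ RatK (y 2)]
    have h2 : (wvec tvec ![0, algebraMap ℂ RatK (y 0), algebraMap ℂ RatK (y 1),
        algebraMap ℂ RatK (y 2)] : Fin 6 → RatK) =
        fun i => algebraMap ℂ RatK ((![0, 0, 0, y 0, y 1, y 2] : Fin 6 → ℂ) i) := by
      funext i
      fin_cases i <;> simp [wvec]
    rw [h2] at h1
    simp only [Matrix.cons_val_zero, zero_mul] at h1
    exact (map_eq_zero (algebraMap ℂ RatK)).mp ((MvPolynomial.comp_aeval_apply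
      (![0, 0, 0, y 0, y 1, y 2] : Fin 6 → ℂ) (Algebra.ofId ℂ RatK) _).trans h1))
  refine ⟨B, hB, fun v => ?_⟩
  have h1 : ∀ v : Fin 4 → RatK, v 0 ≠ 0 → qM M v = qf (qmat B) v := by
    intro v hv
    have := hq v
    rw [hB, aeval_cubic_wvec] at this
    rw [qf_qmat, ← mul_left_cancel₀ hv this]
    simp
  by_cases hv : v 0 = 0
  · have e1 := h1 (Pi.single 0 1 + v) (by simp [hv])
    have e2 := h1 (Pi.single 0 1 - v) (by simp [hv])
    have e3 := h1 (Pi.single 0 1) (by simp)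
    have p1 := QuadraticMap.map_add (qM M) (Pi.single 0 1) v
    have p2 := QuadraticMap.map_add (qM M) (Pi.single 0 1) (-v)
    rw [QuadraticMap.map_neg, QuadraticMap.polar_neg_right] at p2
    rw [sub_eq_add_neg] at e2
    rw [p1, qf_add] at e1
    rw [p2, qf_add, show (-v) = (-1 : RatK) • v by simp, qf_smul, pf_smul_right] at e2
    exact mul_left_cancel₀ two_ne_zero (by linear_combination e1 + e2 - 2 * e3)
  · exact h1 v hv

/-- **The Verra case.** If the form of the fibration is similar over `K` to `φ ⊥ ⟨1⟩`, `φ` a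
symmetric matrix of quadratic forms with smooth determinant, the cubic is rational, or the form
`xᵀ (Tm φ)(z) x + w² = zᵀ φ(x) z + w²` over `ℂ(z)` is anisotropic. -/
theorem verra (M : Matrix (Fin 4) (Fin 4) P3)
    (hdeg : ∀ i j, (M i j).IsHomogeneous (1 + wt i + wt j)) (hs : SmoothForm (cubicOf M))
    (hφ : φ.IsSymm) (h2 : ∀ i j, (φ i j).IsHomogeneous 2) (hsm : SmoothP φ.det)
    {l : RatK} (hl : l ≠ 0) (ψ : (Fin 4 → RatK) ≃ₗ[RatK] (Fin 4 → RatK))
    (h : ∀ v, ![ψ v 0, ψ v 1, ψ v 2] ⬝ᵥ (φ.map (aeval tvec : P3 →ₐ[ℂ] RatK)) *ᵥ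
      ![ψ v 0, ψ v 1, ψ v 2] + ψ v 3 ^ 2 = l * (v ⬝ᵥ (M.map (aeval tvec : P3 →ₐ[ℂ] RatK)) *ᵥ v)) :
    NetResult.RationalHypersurface (cubicOf M) ∨ ∀ (x : Fin 3 → RatK) (w : RatK),
      x ⬝ᵥ ((Tm φ).map (aeval tvec : P3 →ₐ[ℂ] RatK)) *ᵥ x + w ^ 2 = 0 → x = 0 ∧ w = 0 := by
  by_cases hB : aeval tvec (φ 0 0) = 0
  · refine Or.inl (rational_of_isotropic_matrix M hdeg hs (ψ.symm (Pi.single 0 1))
      (by simp) ?_)
    have := h (ψ.symm (Pi.single 0 1))
    rw [ψ.apply_symm_apply] at this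
    refine (mul_eq_zero.1 (this.symm.trans ?_)).resolve_left hl
    simp [dotProduct, mulVec, Fin.sum_univ_three, hB]
  refine or_iff_not_imp_right.2 fun hc => ?_
  push Not at hc
  obtain ⟨x, w, h3, h4⟩ := hc
  obtain ⟨B, hB1, hB2⟩ := reduce M hdeg
  rw [hB1] at hs ⊢
  let τ : (Fin 4 → RatK) ≃ₗ[RatK] (Fin 4 → RatK) := LinearEquiv.funCongrLeft RatK RatK perm4
  have hid (A : Matrix (Fin 3) (Fin 3) RatK) : A.map (algebraMap RatK RatK) = A := rfl
  refine rational_of_fourGenerated B (prime_of_smooth B hs) (nondegenerate_of_smooth B hs)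
    fun E _ _ _ _ η H hC => verra_four h2 (fun h0 => Tm_not_sq hφ h2 hsm (h0 ▸ IsSquare.zero))
      (P := LinearMap.toMatrix' (τ.trans ψ).toLinearMap) ?_ hl (fun u => ?_) hB H hC
      ![x 0, x 1, x 2, w] (fun h0 => ?_) ?_
  · rw [LinearMap.det_toMatrix']
    exact (τ.trans ψ).isUnit_det'
  · rw [LinearMap.toMatrix'_mulVec, qf_blk, hid, ← hB2, qM_apply]
    exact h (u ∘ perm4)
  · refine h4 (funext fun i => ?_) (congrFun h0 3)
    fin_cases i
    exacts [congrFun h0 0, congrFun h0 1, congrFun h0 2]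
  · rw [qf_blk, hid, ← h3]
    simp only [cons_val_zero, cons_val_one, cons_val]
    rw [show ![x 0, x 1, x 2] = x from funext fun i => by fin_cases i <;> rfl]

end Vale.Agent.P287Z.V
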